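import Vale.Agent.P050.Local.Integrals

/-!
The derivative of the Sidorenko function is nonnegative near the constant kernel.

Proof notes.  Every connected edge set is charged to a path of length two inside it, through the
excess degree, or to its shortest cycle.  The weighted count of attached sets sums the charges.
-/

namespace Vale.Agent.P050.Local

open MeasureTheory Finset

set_option linter.unusedSectionVars false

variable {V : Type} [Fintype V] [DecidableEq V] {Ω : Type} [MeasurableSpace Ω] {μ : Measure Ω}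
  [IsProbabilityMeasure μ] {U : Ω → Ω → ℝ} {ε : ℝ}

/-- The homomorphism integral of the shifted kernel. -/
noncomputable def zint (μ : Measure Ω) (U : Ω → Ω → ℝ) (K : Finset (V × V)) : ℝ :=
  tint μ (fun a b => 1 + U a b) K

theorem goodU_shift (hU : GoodU U ε) : GoodU (fun a b => 1 + U a b) (1 + ε) :=
  ⟨measurable_const.add hU.meas, fun a b => by simp only [hU.symm a b], fun a b =>
    (abs_add_le _ _).trans (by rw [abs_one]; exact add_le_add le_rfl (hU.bound a b)),
    by linarith [hU.nonneg]⟩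

theorem eprod_shift_pos (hU : GoodU U ε) (hε1 : ε < 1) (K : Finset (V × V)) (x : V → Ω) :
    0 < eprod (fun a b => 1 + U a b) K x :=
  prod_pos fun e _ => by linarith [(abs_le.1 (hU.bound (x e.1) (x e.2))).1]

theorem eprod_integrable (hU : GoodU U ε) (K : Finset (V × V)) :
    Integrable (eprod U K) (Measure.pi fun _ : V => μ) :=
  integrable_bdd (eprod_measurable hU.meas K) (eprod_bound hU K)

theorem zint_compare (hU : GoodU U ε) (hε1 : ε < 1) {A B : Finset (V × V)} (h : A ⊆ B) :
    (1 - ε) ^ (B \ A).card * zint μ U A ≤ zint μ U B ∧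
      zint μ U B ≤ (1 + ε) ^ (B \ A).card * zint μ U A := by
  have hpt : ∀ x, (1 - ε) ^ (B \ A).card * eprod (fun a b => 1 + U a b) A x ≤
      eprod (fun a b => 1 + U a b) B x ∧ eprod (fun a b => 1 + U a b) B x ≤
      (1 + ε) ^ (B \ A).card * eprod (fun a b => 1 + U a b) A x := by
    intro x
    have e : eprod (fun a b => 1 + U a b) B x =
        eprod (fun a b => 1 + U a b) (B \ A) x * eprod (fun a b => 1 + U a b) A x :=
      (prod_sdiff h).symm
    rw [e]
    have hp := (eprod_shift_pos hU hε1 A x).le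
    refine ⟨mul_le_mul_of_nonneg_right ?_ hp, mul_le_mul_of_nonneg_right ?_ hp⟩
    · rw [← Finset.prod_const (s := B \ A)]
      exact prod_le_prod (fun _ _ => by linarith) fun e _ => by
        linarith [(abs_le.1 (hU.bound (x e.1) (x e.2))).1]
    · rw [← Finset.prod_const (s := B \ A)]
      exact prod_le_prod (fun e _ => by linarith [(abs_le.1 (hU.bound (x e.1) (x e.2))).1])
        fun e _ => by linarith [(abs_le.1 (hU.bound (x e.1) (x e.2))).2]
  have hi := eprod_integrable (V := V) (μ := μ) (goodU_shift hU)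
  constructor
  · rw [zint, zint, tint, tint, ← integral_const_mul]
    exact integral_mono ((hi A).const_mul _) (hi B) fun x => (hpt x).1
  · rw [zint, zint, tint, tint, ← integral_const_mul]
    exact integral_mono (hi B) ((hi A).const_mul _) fun x => (hpt x).2

theorem zint_nonneg (hU : GoodU U ε) (hε1 : ε < 1) (K : Finset (V × V)) : 0 ≤ zint μ U K :=
  integral_nonneg fun x => (eprod_shift_pos hU hε1 K x).le

theorem card_verts_le (K : Finset (V × V)) : (verts K).card ≤ 2 * K.card := by
  refine (card_union_le _ _).trans ?_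
  have h1 : (K.image Prod.fst).card ≤ K.card := card_image_le
  have h2 : (K.image Prod.snd).card ≤ K.card := card_image_le
  omega

theorem card_avoid_sdiff {E : Finset (V × V)} {Δ : ℕ} (hdeg : ∀ v, degIn E v ≤ Δ)
    {C K : Finset (V × V)} (hCK : C ⊆ K) :
    (avoid E C \ avoid E K).card ≤ 2 * Δ * (K \ C).card := by
  have hsub : avoid E C \ avoid E K ⊆
      (verts (K \ C)).biUnion fun v => E.filter fun e => e.1 = v ∨ e.2 = v := by
    intro e he
    obtain ⟨he1, he2⟩ := mem_sdiff.1 he
    obtain ⟨heE, heC⟩ := mem_filter.1 he1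
    have heK : Touch (verts K) e := by
      by_contra h
      exact he2 (mem_filter.2 ⟨heE, h⟩)
    have key : ∀ v ∈ verts K, v ∉ verts C → v ∈ verts (K \ C) := fun v hv hvC => by
      obtain ⟨g, hg, hgv⟩ := mem_verts.1 hv
      exact mem_verts.2 ⟨g, mem_sdiff.2 ⟨hg, fun hgC => hvC (mem_verts.2 ⟨g, hgC, hgv⟩)⟩, hgv⟩
    rcases heK with h | h
    · exact mem_biUnion.2 ⟨e.1, key _ h fun h' => heC (Or.inl h'),
        mem_filter.2 ⟨heE, Or.inl rfl⟩⟩
    · exact mem_biUnion.2 ⟨e.2, key _ h fun h' => heC (Or.inr h'),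
        mem_filter.2 ⟨heE, Or.inr rfl⟩⟩
  refine (card_le_card hsub).trans (card_biUnion_le.trans
    ((sum_le_card_nsmul _ _ Δ fun v _ => hdeg v).trans ?_))
  rw [smul_eq_mul]
  calc (verts (K \ C)).card * Δ ≤ 2 * (K \ C).card * Δ := Nat.mul_le_mul_right _ (card_verts_le _)
    _ = 2 * Δ * (K \ C).card := by ring

theorem avoid_anti {E C K : Finset (V × V)} (hCK : C ⊆ K) : avoid E K ⊆ avoid E C := fun e he => by
  obtain ⟨he1, he2⟩ := mem_filter.1 he
  exact mem_filter.2 ⟨he1, fun h => he2 (h.imp (fun h => verts_mono hCK h)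
    (fun h => verts_mono hCK h))⟩

theorem pow_bounds {Δ : ℕ} (hε : 0 ≤ ε) (hsm : ε * Δ ≤ 1 / 250) (hε1 : ε < 1) :
    1 ≤ 101 / 100 * (1 - ε) ^ (2 * Δ) ∧ (1 + ε) ^ (2 * Δ) ≤ 101 / 100 := by
  have h1 : 1 - 2 * (Δ : ℝ) * ε ≤ (1 - ε) ^ (2 * Δ) := by
    have := one_add_mul_le_pow (show (-2 : ℝ) ≤ -ε by linarith) (2 * Δ)
    push_cast at this
    calc 1 - 2 * (Δ : ℝ) * ε = 1 + 2 * Δ * -ε := by ring
      _ ≤ (1 + -ε) ^ (2 * Δ) := this
      _ = _ := by ring
  have h2 : 1 ≤ 101 / 100 * (1 - ε) ^ (2 * Δ) := by linarith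
  refine ⟨h2, ?_⟩
  have h3 : (1 + ε) ^ (2 * Δ) * (1 - ε) ^ (2 * Δ) ≤ 1 := by
    rw [← mul_pow]
    exact pow_le_one₀ (mul_nonneg (by linarith) (by linarith)) (by nlinarith)
  nlinarith [pow_nonneg (show (0 : ℝ) ≤ 1 + ε by linarith) (2 * Δ)]

theorem zint_avoid_le (hU : GoodU U ε) (hε1 : ε < 1) {E : Finset (V × V)} {Δ : ℕ}
    (hdeg : ∀ v, degIn E v ≤ Δ) (hsm : ε * Δ ≤ 1 / 250) {C K : Finset (V × V)} (hCK : C ⊆ K) :
    zint μ U (avoid E K) ≤ (101 / 100) ^ (K \ C).card * zint μ U (avoid E C) := by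
  set j := (K \ C).card
  have h1 := (zint_compare (μ := μ) hU hε1 (avoid_anti (E := E) hCK)).1
  have h2 : (1 - ε) ^ (2 * Δ * j) * zint μ U (avoid E K) ≤ zint μ U (avoid E C) :=
    le_trans (mul_le_mul_of_nonneg_right (pow_le_pow_of_le_one (by linarith) (by linarith [hU.nonneg])
      (card_avoid_sdiff hdeg hCK)) (zint_nonneg hU hε1 _)) h1
  have h3 : 1 ≤ (101 / 100 : ℝ) ^ j * (1 - ε) ^ (2 * Δ * j) := by
    rw [pow_mul (1 - ε), ← mul_pow]
    exact one_le_pow₀ (pow_bounds hU.nonneg hsm hε1).1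
  calc zint μ U (avoid E K) ≤ (101 / 100 : ℝ) ^ j * (1 - ε) ^ (2 * Δ * j) * zint μ U (avoid E K) :=
        le_mul_of_one_le_left (zint_nonneg hU hε1 _) h3
    _ ≤ _ := by rw [mul_assoc]; exact mul_le_mul_of_nonneg_left h2 (by positivity)

theorem avoid_empty (E : Finset (V × V)) : avoid E ∅ = E :=
  filter_true_of_mem fun e _ => by simp [Touch, verts]

theorem zint_le_avoid (hU : GoodU U ε) (hε1 : ε < 1) {E : Finset (V × V)} {Δ : ℕ}
    (hdeg : ∀ v, degIn E v ≤ Δ) (hsm : ε * Δ ≤ 1 / 250) (K : Finset (V × V)) :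
    zint μ U E ≤ (101 / 100) ^ K.card * zint μ U (avoid E K) := by
  have h1 := (zint_compare (μ := μ) hU hε1 (avoid_anti (E := E) (empty_subset K))).2
  have h2 := card_avoid_sdiff hdeg (empty_subset K)
  rw [avoid_empty, sdiff_empty] at h2
  rw [avoid_empty] at h1
  refine h1.trans (mul_le_mul_of_nonneg_right ?_ (zint_nonneg hU hε1 _))
  refine (pow_le_pow_right₀ (by linarith [hU.nonneg]) h2).trans ?_
  rw [pow_mul]
  exact pow_le_pow_left₀ (pow_nonneg (by linarith [hU.nonneg]) _)
    (pow_bounds hU.nonneg hsm hε1).2 _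

/-- The edge at a leaf. -/
theorem leaf_data {col : V → Bool} {K : Finset (V × V)} (hK : Bip col K) {v : V}
    (hv : degIn K v = 1) :
    ∃ e a, e ∈ K ∧ (e = (v, a) ∨ e = (a, v)) ∧ v ≠ a ∧ ∀ f ∈ K, f.1 = v ∨ f.2 = v → f = e := by
  obtain ⟨e, he⟩ := card_eq_one.1 hv
  have hmem : e ∈ K ∧ (e.1 = v ∨ e.2 = v) := mem_filter.1 (he ▸ mem_singleton_self e)
  have honly : ∀ f ∈ K, f.1 = v ∨ f.2 = v → f = e := fun f hf hfv =>
    mem_singleton.1 (he ▸ mem_filter.2 ⟨hf, hfv⟩)
  obtain ⟨e1, e2⟩ := e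
  have hne : e1 ≠ e2 := Link.ne hK (Or.inl hmem.1)
  rcases hmem.2 with h | h <;> simp only at h <;> subst h
  · exact ⟨_, e2, hmem.1, Or.inl rfl, hne, honly⟩
  · exact ⟨_, e1, hmem.1, Or.inr rfl, hne.symm, honly⟩

theorem tint_leaf (hU : GoodU U ε) {K : Finset (V × V)} {v a : V} (hva : v ≠ a) {e : V × V}
    (he : e ∈ K) (hev : e = (v, a) ∨ e = (a, v))
    (honly : ∀ f ∈ K, f.1 = v ∨ f.2 = v → f = e) :
    tint μ U K = ∫ x, udeg μ U (x a) * eprod U (K.erase e) x ∂Measure.pi (fun _ => μ) := by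
  have h := leaf_integral (μ := μ) hU hva he hev honly (g := fun _ => 1) measurable_const
    (C := 1) (fun _ => by simp) (fun _ _ => rfl)
  simpa [tint] using h

/-- A single edge has integral zero. -/
theorem tint_single (hU : GoodU U ε) (h0 : ∫ z, udeg μ U z ∂μ = 0) {col : V → Bool} {e : V × V}
    (hK : Bip col {e}) : tint μ U {e} = 0 := by
  obtain ⟨a, b⟩ := e
  have hne : a ≠ b := Link.ne hK (Or.inl (mem_singleton_self _))
  rw [tint_leaf hU hne (mem_singleton_self _) (Or.inl rfl) fun f hf _ => mem_singleton.1 hf]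
  simp only [erase_singleton, eprod, prod_empty, mul_one]
  rw [integral_eval b (udeg_measurable hU) (udeg_bound hU), h0]

/-- A path of length two gives the square of the excess degree. -/
theorem tint_cherry (hU : GoodU U ε) {col : V → Bool} {K : Finset (V × V)} (hK : Bip col K)
    (hc : Conn K) (hcard : K.card = 2) : tint μ U K = ∫ z, udeg μ U z ^ 2 ∂μ := by
  obtain ⟨⟨p, q⟩, ⟨s, t⟩, hne, rfl⟩ := card_eq_two.1 hcard
  obtain ⟨f, hf, hft⟩ := hc.2 {(p, q)} (by simp) (singleton_nonempty _) fun h => by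
    have := congrArg Finset.card h
    rw [card_singleton, hcard] at this
    omega
  obtain ⟨hf1, hf2⟩ := mem_sdiff.1 hf
  obtain rfl : f = (s, t) := by
    rcases mem_insert.1 hf1 with h | h
    · exact absurd (mem_singleton.2 h) hf2
    · exact mem_singleton.1 h
  obtain ⟨a1, a2⟩ := hK (p, q) (by simp)
  obtain ⟨b1, b2⟩ := hK (s, t) (by simp)
  simp only at a1 a2 b1 b2
  have hv : verts ({(p, q)} : Finset (V × V)) = {p, q} := by
    ext v; simp [verts]
  rw [Touch, hv] at hft
  simp only [mem_insert, mem_singleton] at hft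
  -- the two outer vertices are leaves
  have gen : ∀ (v w a : V) (e f : V × V), v ≠ a → w ≠ a → v ≠ w → e ≠ f →
      (e = (v, a) ∨ e = (a, v)) → (f = (w, a) ∨ f = (a, w)) →
      ({(p, q), (s, t)} : Finset (V × V)) = {e, f} →
      tint μ U {(p, q), (s, t)} = ∫ z, udeg μ U z ^ 2 ∂μ := by
    intro v w a e f hva hwa hvw hef he hf hset
    rw [hset]
    have honly : ∀ g ∈ ({e, f} : Finset (V × V)), g.1 = v ∨ g.2 = v → g = e := by
      intro g hg hgv
      rcases mem_insert.1 hg with h | h
      · exact h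
      · rw [mem_singleton] at h; subst h
        rcases hf with rfl | rfl <;> rcases hgv with h | h <;> simp_all
    rw [tint_leaf hU hva (mem_insert_self e {f}) he honly]
    have her : ({e, f} : Finset (V × V)).erase e = {f} := by
      rw [erase_insert]; simpa using hef
    rw [her, leaf_integral hU hwa (mem_singleton_self f) hf (fun g hg _ => mem_singleton.1 hg)
      (g := fun x => udeg μ U (x a)) ((udeg_measurable hU).comp (measurable_pi_apply a))
      (fun x => udeg_bound hU _) (fun x z => by rw [Function.update_of_ne hwa.symm])]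
    simp only [erase_singleton, eprod, prod_empty, mul_one, ← pow_two]
    refine integral_eval a ((udeg_measurable hU).pow_const 2) (C := ε ^ 2) fun z => ?_
    rw [abs_pow]
    exact pow_le_pow_left₀ (abs_nonneg _) (udeg_bound hU z) 2
  rcases hft with (h | h) | (h | h)
  · subst h
    exact gen q t s (s, q) (s, t) (fun h => by rw [h, b1] at a2; exact Bool.false_ne_true a2)
      (fun h => by rw [h, b1] at b2; exact Bool.false_ne_true b2)
      (fun h => hne (by rw [h])) hne (Or.inr rfl) (Or.inr rfl) rfl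
  · rw [h, a2] at b1; exact absurd b1 (by simp)
  · rw [h, a1] at b2; exact absurd b2 (by simp)
  · subst h
    exact gen p s t (p, t) (s, t) (fun h => by rw [h, b2] at a1; exact Bool.false_ne_true a1.symm)
      (fun h => by rw [h, b2] at b1; exact Bool.false_ne_true b1.symm)
      (fun h => hne (by rw [h])) hne (Or.inl rfl) (Or.inl rfl) rfl

theorem abs_eprod_integral (hU : GoodU U ε) (K : Finset (V × V)) : |tint μ U K| ≤ ε ^ K.card :=
  abs_integral_le fun x => eprod_bound hU K x

/-- Two leaves. -/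
theorem forest_bound (hU : GoodU U ε) {col : V → Bool} {K : Finset (V × V)} (hK : Bip col K)
    (hc : Conn K) (hcard : 2 ≤ K.card) (hno : ∀ n c, ¬IsCyc K n c) :
    |tint μ U K| ≤ ε ^ (K.card - 2) * ∫ z, udeg μ U z ^ 2 ∂μ := by
  obtain ⟨v, w, hvw, hv, hw⟩ := two_leaves hK hc.1 hno
  obtain ⟨e, a, heK, hev, hva, heonly⟩ := leaf_data hK hv
  obtain ⟨f, b, hfK, hfw, hwb, hfonly⟩ := leaf_data hK hw
  have hef : e ≠ f := by
    rintro rfl
    have hverts : ∀ u ∈ verts {e}, u = v ∨ u = w := by
      intro u hu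
      obtain ⟨g, hg, hgu⟩ := mem_verts.1 hu
      rw [mem_singleton] at hg; subst hg
      rcases hev with rfl | rfl <;> rcases hfw with h | h <;> simp only [Prod.mk.injEq] at h <;>
        rcases hgu with rfl | rfl <;> simp_all
    obtain ⟨g, hg, hgt⟩ := hc.2 {e} (singleton_subset_iff.2 heK) (singleton_nonempty _) fun h => by
      rw [← h, card_singleton] at hcard; omega
    obtain ⟨hg1, hg2⟩ := mem_sdiff.1 hg
    rw [mem_singleton] at hg2
    rcases hgt with h | h <;> rcases hverts _ h with h' | h'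
    · exact hg2 (heonly g hg1 (Or.inl h'))
    · exact hg2 (hfonly g hg1 (Or.inl h'))
    · exact hg2 (heonly g hg1 (Or.inr h'))
    · exact hg2 (hfonly g hg1 (Or.inr h'))
  have haw : a ≠ w := fun h => hef (hfonly e heK (by rcases hev with rfl | rfl <;> simp [h]))
  rw [tint_leaf hU hva heK hev heonly,
    leaf_integral hU hwb (mem_erase.2 ⟨hef.symm, hfK⟩) hfw
      (fun g hg hgw => hfonly g (mem_of_mem_erase hg) hgw)
      (g := fun x => udeg μ U (x a)) ((udeg_measurable hU).comp (measurable_pi_apply a))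
      (fun x => udeg_bound hU _) (fun x z => by rw [Function.update_of_ne haw])]
  have hsq : ∀ c : V, Integrable (fun x : V → Ω => udeg μ U (x c) ^ 2)
      (Measure.pi fun _ : V => μ) := fun c =>
    integrable_bdd (((udeg_measurable hU).comp (measurable_pi_apply c)).pow_const 2) (C := ε ^ 2)
      fun x => by rw [abs_pow]; exact pow_le_pow_left₀ (abs_nonneg _) (udeg_bound hU _) 2
  have hQ : ∀ c : V, ∫ x : V → Ω, udeg μ U (x c) ^ 2 ∂Measure.pi (fun _ => μ) =
      ∫ z, udeg μ U z ^ 2 ∂μ := fun c =>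
    integral_eval c ((udeg_measurable hU).pow_const 2) (C := ε ^ 2) fun z => by
      rw [abs_pow]; exact pow_le_pow_left₀ (abs_nonneg _) (udeg_bound hU z) 2
  refine abs_integral_le_integral_abs.trans ?_
  have hle : ∀ x : V → Ω, |udeg μ U (x a) * udeg μ U (x b) * eprod U ((K.erase e).erase f) x| ≤
      ε ^ (K.card - 2) * ((udeg μ U (x a) ^ 2 + udeg μ U (x b) ^ 2) / 2) := by
    intro x
    rw [abs_mul, mul_comm]
    refine mul_le_mul ((eprod_bound hU _ x).trans (le_of_eq ?_)) ?_ (abs_nonneg _)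
      (pow_nonneg hU.nonneg _)
    · rw [card_erase_of_mem (mem_erase.2 ⟨hef.symm, hfK⟩), card_erase_of_mem heK]
      congr 1
    · rw [abs_mul]
      nlinarith [sq_nonneg (|udeg μ U (x a)| - |udeg μ U (x b)|), sq_abs (udeg μ U (x a)),
        sq_abs (udeg μ U (x b))]
  have hab : Integrable (fun x : V → Ω => udeg μ U (x a) ^ 2 + udeg μ U (x b) ^ 2)
      (Measure.pi fun _ : V => μ) := (hsq a).add (hsq b)
  refine (integral_mono ?_ ((hab.div_const 2).const_mul _) hle).trans (le_of_eq ?_)
  · refine integrable_bdd ?_ (C := ε * ε * ε ^ ((K.erase e).erase f).card) fun x => ?_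
    · exact ((((udeg_measurable hU).comp (measurable_pi_apply a)).mul
        ((udeg_measurable hU).comp (measurable_pi_apply b))).mul (eprod_measurable hU.meas _)).abs
    · rw [abs_abs, abs_mul, abs_mul]
      have := hU.nonneg
      exact mul_le_mul (mul_le_mul (udeg_bound hU _) (udeg_bound hU _) (abs_nonneg _) this)
        (eprod_bound hU _ x) (abs_nonneg _) (by positivity)
  · rw [integral_const_mul, integral_div, integral_add (hsq a) (hsq b), hQ, hQ]
    ring

theorem two_le_degIn_cyc {col : V → Bool} {K : Finset (V × V)} (hK : Bip col K) {n : ℕ}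
    {c : ℕ → V} (h : IsCyc K n c) {v : V} (hv : v ∈ verts (cycEdges K n c)) :
    2 ≤ degIn K v := by
  rw [verts_cycEdges hK h, mem_image] at hv
  obtain ⟨i, hi, rfl⟩ := hv
  rw [mem_range] at hi
  have hn : 0 < n := by omega
  have h3 := h.1
  set i' := (i + (n - 1)) % n with hi'
  have hi'n : i' < n := Nat.mod_lt _ hn
  have hs : (i' + 1) % n = i := by
    rw [hi', Nat.mod_add_mod, show i + (n - 1) + 1 = i + n by omega, Nat.add_mod_right,
      Nat.mod_eq_of_lt hi]
  have hne : i' ≠ i := fun hc => by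
    rw [hc] at hs
    rcases succ_mod_cases hi with ⟨g1, g2⟩ | ⟨g1, g2⟩ <;> omega
  refine one_lt_card.2 ⟨cycEdge K n c i, mem_filter.2 ⟨cycEdge_mem h hi, ?_⟩, cycEdge K n c i',
    mem_filter.2 ⟨cycEdge_mem h hi'n, ?_⟩,
    fun hc => hne (cycEdge_injOn h (mem_range.2 hi'n) (mem_range.2 hi) hc.symm)⟩
  · unfold cycEdge; split_ifs <;> simp
  · unfold cycEdge; rw [hs]; split_ifs <;> simp

/-- A cycle and a leaf. -/
theorem cyc_leaf_bound (hU : GoodU U ε) (hε : 0 < ε) {col : V → Bool} {K : Finset (V × V)}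
    (hK : Bip col K) {n : ℕ} {c : ℕ → V} (h : IsCyc K n c)
    (hmin : ∀ m d, IsCyc K m d → n ≤ m) {v : V} (hv : degIn K v = 1) :
    |tint μ U K| ≤ ε ^ (K \ cycEdges K n c).card / 2 ^ n * wtrace μ U (List.replicate n one1) +
      2 ^ K.card * ε ^ (K.card - 2) * ∫ z, udeg μ U z ^ 2 ∂μ := by
  obtain ⟨e, a, heK, hev, hva, heonly⟩ := leaf_data hK hv
  have heC : e ∉ cycEdges K n c := fun hc => by
    have : v ∈ verts (cycEdges K n c) := by
      rcases hev with rfl | rfl
      · exact fst_mem_verts hc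
      · exact snd_mem_verts hc
    have := two_le_degIn_cyc hK h this
    omega
  set K' := K.erase e with hK'
  have hsub : cycEdges K n c ⊆ K' := fun g hg =>
    mem_erase.2 ⟨fun hge => heC (hge ▸ hg), cycEdges_subset K n c hg⟩
  have h' : IsCyc K' n c := (isCyc_cycEdges h).mono hsub
  have hK'b : Bip col K' := hK.mono (erase_subset _ _)
  have hCeq : cycEdges K' n c = cycEdges K n c :=
    eq_of_subset_of_card_le
      (fun g hg => mem_filter.2 ⟨mem_of_mem_erase (mem_filter.1 hg).1, (mem_filter.1 hg).2⟩)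
      (by rw [card_cycEdges hK h, card_cycEdges hK'b h'])
  set j := (K \ cycEdges K n c).card with hj
  have hj' : (K' \ cycEdges K' n c).card + 1 = j := by
    rw [hCeq, hj, card_sdiff_of_subset hsub, card_sdiff_of_subset (cycEdges_subset K n c), hK',
      card_erase_of_mem heK, card_cycEdges hK h]
    have h1 : n ≤ K'.card := card_cycEdges hK h ▸ card_le_card hsub
    rw [hK', card_erase_of_mem heK] at h1
    have := h.1
    omega
  rw [tint_leaf hU hva heK hev heonly]
  set η := ε / 2 ^ n with hη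
  have hη0 : 0 < η := by positivity
  set us : Ω → ℝ := fun z => if |udeg μ U z| ≤ η then udeg μ U z else 0 with hus
  set ub : Ω → ℝ := fun z => if |udeg μ U z| ≤ η then 0 else udeg μ U z with hub
  have hm : MeasurableSet {z | |udeg μ U z| ≤ η} :=
    measurableSet_le (udeg_measurable hU).abs measurable_const
  have husm : Measurable us := Measurable.ite hm (udeg_measurable hU) measurable_const
  have hubm : Measurable ub := Measurable.ite hm measurable_const (udeg_measurable hU)
  have husb : ∀ z, |us z| ≤ η := fun z => by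
    simp only [hus]; split_ifs with g
    · exact g
    · simpa using hη0.le
  have hubb : ∀ z, |ub z| ≤ udeg μ U z ^ 2 / η := fun z => by
    simp only [hub]
    split_ifs with g
    · rw [abs_zero]; positivity
    · rw [le_div_iff₀ hη0, ← sq_abs (udeg μ U z), pow_two]
      exact mul_le_mul_of_nonneg_left (not_le.1 g).le (abs_nonneg _)
  have hsplit : ∀ x : V → Ω, udeg μ U (x a) * eprod U K' x =
      us (x a) * eprod U K' x + ub (x a) * eprod U K' x := fun x => by
    simp only [hus, hub]; split_ifs <;> ring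
  have hub' : ∀ z, |ub z| ≤ ε := fun z => by
    simp only [hub]; split_ifs
    · simpa using hε.le
    · exact udeg_bound hU z
  have i1 : Integrable (fun x => us (x a) * eprod U K' x) (Measure.pi fun _ : V => μ) :=
    integrable_bdd ((husm.comp (measurable_pi_apply a)).mul (eprod_measurable hU.meas _))
      (C := η * ε ^ K'.card) fun x => by
        rw [abs_mul]; exact mul_le_mul (husb _) (eprod_bound hU _ x) (abs_nonneg _) hη0.le
  have i2 : Integrable (fun x => ub (x a) * eprod U K' x) (Measure.pi fun _ : V => μ) :=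
    integrable_bdd ((hubm.comp (measurable_pi_apply a)).mul (eprod_measurable hU.meas _))
      (C := ε * ε ^ K'.card) fun x => by
        rw [abs_mul]; exact mul_le_mul (hub' _) (eprod_bound hU _ x) (abs_nonneg _) hε.le
  simp only [← hK', hsplit]
  rw [integral_add i1 i2]
  refine (abs_add_le _ _).trans (add_le_add ?_ ?_)
  · refine (cycle_bound hU hε hK'b h' (fun m d hd => hmin m d (hd.mono (erase_subset _ _))) husm hη0
      husb a).trans (le_of_eq ?_)
    rw [← hj', hη, pow_succ]
    ring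
  · refine abs_integral_le_integral_abs.trans ?_
    have hQi : Integrable (fun x : V → Ω => udeg μ U (x a) ^ 2) (Measure.pi fun _ : V => μ) :=
      integrable_bdd (((udeg_measurable hU).comp (measurable_pi_apply a)).pow_const 2) (C := ε ^ 2)
        fun x => by rw [abs_pow]; exact pow_le_pow_left₀ (abs_nonneg _) (udeg_bound hU _) 2
    refine (integral_mono i2.abs ((hQi.const_mul (ε ^ K'.card / η))) fun x => ?_).trans ?_
    · simp only [abs_mul]
      refine (mul_le_mul (hubb _) (eprod_bound hU _ x) (abs_nonneg _) (by positivity)).trans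
        (le_of_eq ?_)
      ring
    · rw [integral_const_mul, integral_eval a ((udeg_measurable hU).pow_const 2) (C := ε ^ 2)
        fun z => by rw [abs_pow]; exact pow_le_pow_left₀ (abs_nonneg _) (udeg_bound hU z) 2]
      refine mul_le_mul_of_nonneg_right ?_ (integral_nonneg fun z => sq_nonneg _)
      have hn : n ≤ K.card := card_cycEdges hK h ▸ card_le_card (cycEdges_subset K n c)
      have hk : 2 ≤ K.card := by have := h.1; omega
      rw [hη, hK', card_erase_of_mem heK, show K.card - 1 = K.card - 2 + 1 by omega, pow_succ]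
      rw [div_le_iff₀ (by positivity)]
      calc ε ^ (K.card - 2) * ε = 2 ^ n * ε ^ (K.card - 2) * (ε / 2 ^ n) := by field_simp
        _ ≤ _ := by
          gcongr
          norm_num

/-- No leaf. -/
theorem cyc_bound (hU : GoodU U ε) (hε : 0 < ε) {col : V → Bool} {K : Finset (V × V)}
    (hK : Bip col K) {n : ℕ} {c : ℕ → V} (h : IsCyc K n c)
    (hmin : ∀ m d, IsCyc K m d → n ≤ m) :
    |tint μ U K| ≤ ε ^ (K \ cycEdges K n c).card * wtrace μ U (List.replicate n one1) := by
  have := cycle_bound (μ := μ) hU hε hK h hmin (f := fun _ => 1) measurable_const one_pos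
    (fun _ => by simp) (c 0)
  simpa [tint] using this

/-- The edges of a cycle are connected. -/
theorem conn_cycEdges {col : V → Bool} {K : Finset (V × V)} (hK : Bip col K) {n : ℕ} {c : ℕ → V}
    (h : IsCyc K n c) : Conn (cycEdges K n c) := by
  have hn : 0 < n := lt_of_lt_of_le (by norm_num) h.1
  rw [cycEdges_eq_image hK h]
  refine ⟨(nonempty_range_iff.2 hn.ne').image _, fun T hT hne hTne => ?_⟩
  obtain ⟨i, hi, hiT, hjT⟩ : ∃ i < n, cycEdge K n c i ∈ T ∧ cycEdge K n c ((i + 1) % n) ∉ T := by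
    by_contra hcon
    push Not at hcon
    refine hTne (Subset.antisymm hT fun e he => ?_)
    obtain ⟨e0, he0⟩ := hne
    obtain ⟨i0, hi0, rfl⟩ := mem_image.1 (hT he0)
    obtain ⟨j, hj, rfl⟩ := mem_image.1 he
    rw [mem_range] at hi0 hj
    have all : ∀ k, cycEdge K n c ((i0 + k) % n) ∈ T := by
      intro k
      induction k with
      | zero => rwa [add_zero, Nat.mod_eq_of_lt hi0]
      | succ k ih =>
        have := hcon _ (Nat.mod_lt _ hn) ih
        rwa [Nat.mod_add_mod, add_assoc] at this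
    have := all (j + n - i0)
    rwa [show i0 + (j + n - i0) = j + n by omega, Nat.add_mod_right, Nat.mod_eq_of_lt hj] at this
  refine ⟨_, mem_sdiff.2 ⟨mem_image_of_mem _ (mem_range.2 (Nat.mod_lt _ hn)), hjT⟩, ?_⟩
  have hv : c ((i + 1) % n) ∈ verts T := mem_verts.2 ⟨_, hiT, by
    unfold cycEdge; split_ifs <;> simp⟩
  simp only [Touch, cycEdge]
  split_ifs <;> simp [hv]

/-- Some cycle. -/
def HasCyc (K : Finset (V × V)) : Prop := ∃ n c, IsCyc K n c

open scoped Classical in
/-- The length of a shortest cycle. -/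
noncomputable def cycLen (K : Finset (V × V)) : ℕ :=
  if h : HasCyc K then Nat.find h else 0

open scoped Classical in
/-- A shortest cycle. -/
noncomputable def cycFun (K : Finset (V × V)) (h : HasCyc K) : ℕ → V :=
  Classical.choose (Nat.find_spec h)

open scoped Classical in
/-- The edges of a shortest cycle. -/
noncomputable def cycOf (K : Finset (V × V)) : Finset (V × V) :=
  if h : HasCyc K then cycEdges K (cycLen K) (cycFun K h) else ∅

theorem cycOf_spec {col : V → Bool} {K : Finset (V × V)} (hK : Bip col K) (h : HasCyc K) :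
    IsCyc K (cycLen K) (cycFun K h) ∧ (∀ m d, IsCyc K m d → cycLen K ≤ m) ∧
      cycOf K = cycEdges K (cycLen K) (cycFun K h) ∧ (cycOf K).card = cycLen K := by
  classical
  have h1 : IsCyc K (cycLen K) (cycFun K h) := by
    rw [cycLen, dif_pos h]
    exact Classical.choose_spec (Nat.find_spec h)
  have h2 : cycOf K = cycEdges K (cycLen K) (cycFun K h) := dif_pos h
  refine ⟨h1, fun m d hd => ?_, h2, by rw [h2, card_cycEdges hK h1]⟩
  rw [cycLen, dif_pos h]
  exact Nat.find_min' h ⟨d, hd⟩

theorem cycOf_idem {col : V → Bool} {K : Finset (V × V)} (hK : Bip col K) (h : HasCyc K) :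
    HasCyc (cycOf K) ∧ cycOf (cycOf K) = cycOf K := by
  obtain ⟨h1, h2, h3, h4⟩ := cycOf_spec hK h
  have hsub : cycOf K ⊆ K := h3 ▸ cycEdges_subset K _ _
  have hC : HasCyc (cycOf K) := ⟨_, _, h3 ▸ isCyc_cycEdges h1⟩
  obtain ⟨g1, g2, g3, g4⟩ := cycOf_spec (hK.mono hsub) hC
  refine ⟨hC, eq_of_subset_of_card_le (g3 ▸ cycEdges_subset _ _ _) ?_⟩
  rw [g4, h4]
  exact h2 _ _ (g1.mono hsub)

theorem exists_cherry {K : Finset (V × V)} (hc : Conn K) (h2 : 2 ≤ K.card) :
    ∃ R, R ⊆ K ∧ R.card = 2 ∧ Conn R := by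
  obtain ⟨e, he⟩ := hc.1
  obtain ⟨f, hf, hft⟩ := hc.2 {e} (singleton_subset_iff.2 he) (singleton_nonempty _) fun h => by
    rw [← h, card_singleton] at h2; omega
  obtain ⟨hf1, hf2⟩ := mem_sdiff.1 hf
  rw [mem_singleton] at hf2
  refine ⟨{e, f}, insert_subset he (singleton_subset_iff.2 hf1), card_pair (Ne.symm hf2),
    insert_nonempty _ _, fun T hT hne hTR => ?_⟩
  by_cases heT : e ∈ T
  · have hfT : f ∉ T := fun hfT => hTR (Subset.antisymm hT
      (insert_subset heT (singleton_subset_iff.2 hfT)))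
    exact ⟨f, mem_sdiff.2 ⟨by simp, hfT⟩,
      hft.imp (fun h => verts_mono (singleton_subset_iff.2 heT) h)
        (fun h => verts_mono (singleton_subset_iff.2 heT) h)⟩
  · obtain ⟨g, hg⟩ := hne
    have hgf : g = f := by
      rcases mem_insert.1 (hT hg) with h | h
      · exact absurd (h ▸ hg) heT
      · exact mem_singleton.1 h
    subst hgf
    obtain ⟨e', he', hte⟩ := touch_comm hft
    rw [mem_singleton] at he'; subst he'
    exact ⟨e', mem_sdiff.2 ⟨by simp, heT⟩, hte.imp
      (fun h => verts_mono (singleton_subset_iff.2 hg) h)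
      (fun h => verts_mono (singleton_subset_iff.2 hg) h)⟩

open scoped Classical in
/-- A path of length two inside. -/
noncomputable def cherryOf (K : Finset (V × V)) : Finset (V × V) :=
  if h : Conn K ∧ 2 ≤ K.card then Classical.choose (exists_cherry h.1 h.2) else ∅

theorem cherryOf_spec {K : Finset (V × V)} (hc : Conn K) (h2 : 2 ≤ K.card) :
    cherryOf K ⊆ K ∧ (cherryOf K).card = 2 ∧ Conn (cherryOf K) := by
  classical
  rw [cherryOf, dif_pos ⟨hc, h2⟩]
  exact Classical.choose_spec (exists_cherry hc h2)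

open scoped Classical in
/-- Charges assigned to a part are summed by the count of attached sets. -/
theorem fiber_sum_le {E : Finset (V × V)} {Δ : ℕ} (hΔ : 1 ≤ Δ) (hdeg : ∀ v, degIn E v ≤ Δ)
    (R : Finset (V × V)) (hR : R.Nonempty) (S : Finset (Finset (V × V))) (hS : S ⊆ conns E)
    (hsub : ∀ K ∈ S, R ⊆ K) (φ : Finset (V × V) → ℝ) {c : ℝ} (hc : 0 ≤ c)
    (hφ : ∀ K ∈ S, φ K ≤ c * (4 / (25 * (Δ : ℝ))) ^ (K \ R).card) :
    ∑ K ∈ S, φ K ≤ c * (5 / 4) ^ (verts R).card := by
  refine (sum_le_sum hφ).trans ?_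
  rw [← mul_sum]
  refine mul_le_mul_of_nonneg_left (le_trans ?_ (attached_sum_le_pow hΔ hdeg (verts R))) hc
  rw [← sum_image (s := S) (g := fun K => K \ R)
    (f := fun A : Finset (V × V) => (4 / (25 * (Δ : ℝ))) ^ A.card)]
  · refine sum_le_sum_of_subset_of_nonneg (fun A hA => ?_) fun _ _ _ => by positivity
    obtain ⟨K, hK, rfl⟩ := mem_image.1 hA
    obtain ⟨hKE, hKc⟩ := mem_conns.1 (hS hK)
    exact mem_filter.2 ⟨mem_powerset.2 (sdiff_subset.trans hKE),
      attached_sdiff hKc (hsub K hK) hR⟩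
  · intro K hK L hL hKL
    rw [← sdiff_union_of_subset (hsub K hK), ← sdiff_union_of_subset (hsub L hL)]
    exact congrArg (· ∪ R) hKL

/-- The weight that appears in the charges of the cycles. -/
theorem scaled_le {Δ : ℕ} (hΔ : 1 ≤ Δ) (hsm : ε * Δ ≤ 1 / 250) {a b : ℝ} (ha : 0 ≤ a)
    (hab : a / 40 ≤ b) : a * ε ≤ b * (4 / (25 * (Δ : ℝ))) := by
  have hD : (1 : ℝ) ≤ Δ := Nat.one_le_cast.2 hΔ
  rw [mul_div_assoc', le_div_iff₀ (by positivity)]
  nlinarith [mul_le_mul_of_nonneg_left hsm ha]

theorem card_le_geom (j : ℕ) : ((j + 2 : ℕ) : ℝ) ≤ 2 * (3 / 2 : ℝ) ^ j := by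
  induction j with
  | zero => norm_num
  | succ j ih =>
    have h1 : (1 : ℝ) ≤ (3 / 2) ^ j := one_le_pow₀ (by norm_num)
    push_cast at ih ⊢
    rw [pow_succ]
    linarith

theorem add_le_geom {n : ℕ} (hn : 4 ≤ n) (j : ℕ) : ((n + j : ℕ) : ℝ) ≤ n * (5 / 4 : ℝ) ^ j := by
  have h4 : (4 : ℝ) ≤ n := by exact_mod_cast hn
  have h := one_add_mul_le_pow (show (-2 : ℝ) ≤ 1 / 4 by norm_num) j
  rw [show (1 : ℝ) + 1 / 4 = 5 / 4 by norm_num] at h
  push_cast
  nlinarith [mul_le_mul_of_nonneg_left h (show (0 : ℝ) ≤ n by linarith),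
    mul_nonneg (show (0 : ℝ) ≤ (n : ℝ) - 4 by linarith) (Nat.cast_nonneg j : (0 : ℝ) ≤ j)]

open scoped Classical in
/-- The derivative along the segment to the constant kernel. -/
theorem deriv_sum_nonneg (hU : GoodU U ε) (hε : 0 < ε) (h0 : ∫ z, udeg μ U z ∂μ = 0)
    {col : V → Bool} {E : Finset (V × V)} (hE : Bip col E) {Δ : ℕ} (hΔ : 1 ≤ Δ)
    (hdeg : ∀ v, degIn E v ≤ Δ) (hsm : ε * Δ ≤ 1 / 250) :
    0 ≤ ∑ K ∈ conns E, (K.card : ℝ) * (tint μ U K * zint μ U (avoid E K)) := by
  have hD : (1 : ℝ) ≤ Δ := Nat.one_le_cast.2 hΔ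
  have hε1 : ε < 1 := by nlinarith
  set Q := ∫ z, udeg μ U z ^ 2 ∂μ with hQ
  have hQ0 : 0 ≤ Q := integral_nonneg fun z => sq_nonneg _
  set T0 := zint μ U E with hT0
  have hT00 : 0 ≤ T0 := zint_nonneg hU hε1 E
  set Z : Finset (V × V) → ℝ := fun K => zint μ U (avoid E K) with hZ
  have hZ0 : ∀ K, 0 ≤ Z K := fun K => zint_nonneg hU hε1 _
  set r : ℝ := 101 / 100 with hr
  have hr0 : 0 < r := by norm_num
  set T : Finset (V × V) → ℝ := fun K => wtrace μ U (List.replicate (cycLen K) one1) with hT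
  set G : Finset (V × V) → ℝ := fun K =>
    if 3 ≤ K.card then (K.card : ℝ) * (2 * r) ^ K.card * ε ^ (K.card - 2) * (Q * T0) else 0 with hG
  set P : Finset (V × V) → ℝ := fun K => if HasCyc K ∧ cycOf K ≠ K then
    (cycLen K : ℝ) * (1 / 2) ^ cycLen K * (4 / (25 * (Δ : ℝ))) ^ (K \ cycOf K).card *
      (T K * Z (cycOf K)) else 0 with hP
  set A := (conns E).filter fun K => K.card = 2 with hA
  set B := (conns E).filter fun K => HasCyc K ∧ cycOf K = K with hB
  have hZK : ∀ K, Z K ≤ r ^ K.card * T0 := fun K => by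
    have := zint_avoid_le (μ := μ) hU hε1 hdeg hsm (empty_subset K)
    rwa [sdiff_empty, avoid_empty] at this
  have hTpos : ∀ K ∈ conns E, HasCyc K → 0 ≤ T K := fun K hK hcy =>
    ones_trace_nonneg (hE.mono (mem_conns.1 hK).1) (cycOf_spec (hE.mono (mem_conns.1 hK).1) hcy).1 hU
  -- one term
  have term : ∀ K ∈ conns E,
      (if K.card = 2 then 2 * (Q * Z K) else 0) +
        (if HasCyc K ∧ cycOf K = K then (cycLen K : ℝ) * (T K * Z K) else 0) - G K - P K ≤
      (K.card : ℝ) * (tint μ U K * Z K) := by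
    intro K hK
    obtain ⟨hKE, hKc⟩ := mem_conns.1 hK
    have hKb : Bip col K := hE.mono hKE
    have hk0 : 0 ≤ (K.card : ℝ) := Nat.cast_nonneg _
    have hk1 : 1 ≤ K.card := card_pos.2 hKc.1
    by_cases hcy : HasCyc K
    · obtain ⟨c1, c2, c3, c4⟩ := cycOf_spec hKb hcy
      set n := cycLen K with hn
      have hn4 : 4 ≤ n := by
        obtain ⟨m, hm⟩ := cyc_even hKb c1
        have := c1.1
        omega
      have hle : n ≤ K.card := c4 ▸ card_le_card (c3 ▸ cycEdges_subset K _ _)
      rw [if_neg (show K.card ≠ 2 by omega), zero_add]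
      by_cases heq : cycOf K = K
      · rw [if_pos ⟨hcy, heq⟩]
        have ht : tint μ U K = T K := by
          have := tint_cycle (μ := μ) hU hKb c1
          rwa [← c3, heq] at this
        have hcard : K.card = n := by rw [← c4, heq]
        have hGe : G K = (K.card : ℝ) * (2 * r) ^ K.card * ε ^ (K.card - 2) * (Q * T0) :=
          if_pos (show 3 ≤ K.card by omega)
        have hG0 : 0 ≤ G K := hGe ▸ mul_nonneg (mul_nonneg (mul_nonneg hk0
          (pow_nonneg (by norm_num [hr]) _)) (pow_nonneg hε.le _)) (mul_nonneg hQ0 hT00)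
        have hP0 : P K = 0 := if_neg fun h => h.2 heq
        rw [ht, hcard, hP0]
        linarith
      · rw [if_neg fun h => heq h.2]
        have hGe : G K = (K.card : ℝ) * (2 * r) ^ K.card * ε ^ (K.card - 2) * (Q * T0) :=
          if_pos (show 3 ≤ K.card by omega)
        have hPe : P K = (n : ℝ) * (1 / 2) ^ n * (4 / (25 * (Δ : ℝ))) ^ (K \ cycOf K).card *
            (T K * Z (cycOf K)) := if_pos ⟨hcy, heq⟩
        set j := (K \ cycOf K).card with hj
        have hkj : K.card = n + j := by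
          rw [hj, card_sdiff_of_subset (c3 ▸ cycEdges_subset K _ _), c4]; omega
        have hT' := hTpos K hK hcy
        have hZC : Z K ≤ r ^ j * Z (cycOf K) :=
          zint_avoid_le hU hε1 hdeg hsm (c3 ▸ cycEdges_subset K _ _)
        suffices h : (K.card : ℝ) * (|tint μ U K| * Z K) ≤ G K + P K by
          have h1 := mul_le_mul_of_nonneg_left
            (mul_le_mul_of_nonneg_right (neg_abs_le (tint μ U K)) (hZ0 K)) hk0
          linarith
        have hcoef : ∀ s : ℝ, 0 ≤ s → s * (5 / 4 * r * ε) ^ j ≤ (1 / 2) ^ n *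
            (4 / (25 * (Δ : ℝ))) ^ j →
            (K.card : ℝ) * (s * ε ^ j * T K * Z K) ≤ P K := by
          intro s hs hsj
          rw [hPe]
          calc (K.card : ℝ) * (s * ε ^ j * T K * Z K)
              ≤ (n * (5 / 4 : ℝ) ^ j) * (s * ε ^ j * T K * (r ^ j * Z (cycOf K))) := by
                refine mul_le_mul (by rw [hkj]; exact add_le_geom hn4 j)
                  (mul_le_mul_of_nonneg_left hZC (by positivity))
                  (mul_nonneg (by positivity) (hZ0 K)) (by positivity)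
            _ = n * (s * (5 / 4 * r * ε) ^ j) * (T K * Z (cycOf K)) := by
                rw [mul_pow, mul_pow]; ring
            _ ≤ n * ((1 / 2) ^ n * (4 / (25 * (Δ : ℝ))) ^ j) * (T K * Z (cycOf K)) :=
                mul_le_mul_of_nonneg_right (mul_le_mul_of_nonneg_left hsj (by positivity))
                  (mul_nonneg hT' (hZ0 _))
            _ = _ := by ring
        by_cases hleaf : ∃ v, degIn K v = 1
        · obtain ⟨v, hv⟩ := hleaf
          have hb := cyc_leaf_bound (μ := μ) hU hε hKb c1 c2 hv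
          rw [← c3] at hb
          refine (mul_le_mul_of_nonneg_left (mul_le_mul_of_nonneg_right hb (hZ0 K)) hk0).trans ?_
          have h1 := hcoef ((1 / 2) ^ n) (by positivity) (mul_le_mul_of_nonneg_left
            (pow_le_pow_left₀ (by positivity) ((scaled_le hΔ hsm (show 0 ≤ 5 / 4 * r by positivity)
              (show 5 / 4 * r / 40 ≤ 1 by norm_num [hr])).trans_eq (one_mul _)) j) (by positivity))
          have h2 : (K.card : ℝ) * (2 ^ K.card * ε ^ (K.card - 2) * Q * Z K) ≤ G K := by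
            rw [hGe]
            refine (mul_le_mul_of_nonneg_left (mul_le_mul_of_nonneg_left (hZK K) (by positivity))
              hk0).trans (le_of_eq ?_)
            rw [mul_pow]; ring
          have e1 : ε ^ j / 2 ^ n * wtrace μ U (List.replicate n one1) * Z K =
              (1 / 2) ^ n * ε ^ j * T K * Z K := by
            simp only [hT, ← hn]
            rw [div_pow, one_pow]; ring
          rw [add_mul, e1, mul_add]
          linarith
        · push Not at hleaf
          have hb := cyc_bound (μ := μ) hU hε hKb c1 c2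
          have hgirth := card_ge_of_no_leaf hKb hKc hleaf c1 c2 (fun h => heq (c3.trans h))
          rw [← c3] at hb hgirth
          refine (mul_le_mul_of_nonneg_left (mul_le_mul_of_nonneg_right hb (hZ0 K)) hk0).trans ?_
          have hsj : (1 : ℝ) * (5 / 4 * r * ε) ^ j ≤ (1 / 2) ^ n * (4 / (25 * (Δ : ℝ))) ^ j := by
            rw [one_mul]
            refine (pow_le_pow_left₀ (by positivity) (scaled_le hΔ hsm
              (show 0 ≤ 5 / 4 * r by positivity)
              (show 5 / 4 * r / 40 ≤ (1 / 2) ^ 2 by norm_num [hr])) j).trans ?_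
            rw [mul_pow, ← pow_mul]
            exact mul_le_mul_of_nonneg_right
              (pow_le_pow_of_le_one (by norm_num) (by norm_num) hgirth) (by positivity)
          have h1 := hcoef 1 zero_le_one hsj
          have hG0 : 0 ≤ G K := by rw [hGe]; positivity
          simp only [hT, ← hn, one_mul] at h1
          linarith
    · have hP0 : P K = 0 := if_neg fun h => hcy h.1
      rw [if_neg (show ¬(HasCyc K ∧ cycOf K = K) from fun h => hcy h.1), add_zero, hP0, sub_zero]
      rcases Nat.lt_or_ge K.card 3 with hk | hk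
      · have hG0 : G K = 0 := if_neg (show ¬3 ≤ K.card by omega)
        rw [hG0, sub_zero]
        split_ifs with h2
        · rw [tint_cherry hU hKb hKc h2, h2]
          push_cast
          rw [← hQ]
        · obtain ⟨e, he⟩ := card_eq_one.1 (show K.card = 1 by omega)
          subst he
          rw [tint_single hU h0 hKb]
          simp
      · rw [if_neg (show K.card ≠ 2 by omega)]
        have hno : ∀ n c, ¬IsCyc K n c := fun n c h => hcy ⟨n, c, h⟩
        have hb := forest_bound (μ := μ) hU hKb hKc (show 2 ≤ K.card by omega) hno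
        rw [← hQ] at hb
        have hGe : G K = (K.card : ℝ) * (2 * r) ^ K.card * ε ^ (K.card - 2) * (Q * T0) := if_pos hk
        have h1 := mul_le_mul_of_nonneg_left
          (mul_le_mul_of_nonneg_right (neg_abs_le (tint μ U K)) (hZ0 K)) hk0
        have h2 := mul_le_mul_of_nonneg_left (mul_le_mul hb (hZK K) (hZ0 K) (by positivity)) hk0
        have h3 : (K.card : ℝ) * (ε ^ (K.card - 2) * Q * (r ^ K.card * T0)) ≤ G K := by
          rw [hGe, mul_pow 2 r]
          have h4 : (1 : ℝ) ≤ 2 ^ K.card := one_le_pow₀ (by norm_num)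
          calc (K.card : ℝ) * (ε ^ (K.card - 2) * Q * (r ^ K.card * T0))
              = 1 * ((K.card : ℝ) * r ^ K.card * ε ^ (K.card - 2) * (Q * T0)) := by ring
            _ ≤ 2 ^ K.card * ((K.card : ℝ) * r ^ K.card * ε ^ (K.card - 2) * (Q * T0)) :=
                mul_le_mul_of_nonneg_right h4 (by positivity)
            _ = _ := by ring
        linarith
  -- the charges to paths of length two
  have hGsum : ∑ K ∈ conns E, G K ≤ ∑ R ∈ A, 2 * (Q * Z R) := by
    simp only [hG, ← sum_filter]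
    rw [← sum_fiberwise_of_maps_to (g := cherryOf) (t := A) (fun K hK => by
      obtain ⟨hK1, hK3⟩ := mem_filter.1 hK
      obtain ⟨hKE, hKc⟩ := mem_conns.1 hK1
      obtain ⟨g1, g2, g3⟩ := cherryOf_spec hKc (show 2 ≤ K.card by omega)
      exact mem_filter.2 ⟨mem_conns.2 ⟨g1.trans hKE, g3⟩, g2⟩)]
    refine sum_le_sum fun R hR => ?_
    obtain ⟨hR1, hR2⟩ := mem_filter.1 hR
    have hcard : (verts R).card ≤ 4 := (card_verts_le R).trans (by omega)
    have hZR : T0 ≤ r ^ 2 * Z R := hR2 ▸ zint_le_avoid hU hε1 hdeg hsm R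
    refine (fiber_sum_le hΔ hdeg R (mem_conns.1 hR1).2.1 _
      ((filter_subset _ _).trans (filter_subset _ _))
      (fun K hK => ?_) _ (c := 2 * (2 * r) ^ 2 * (3 / 40 + 1 / 1000) * (Q * T0)) (by positivity)
      fun K hK => ?_).trans ?_
    · obtain ⟨hK1, hKR⟩ := mem_filter.1 hK
      obtain ⟨hK2, hK3⟩ := mem_filter.1 hK1
      exact hKR ▸ (cherryOf_spec (mem_conns.1 hK2).2 (show 2 ≤ K.card by omega)).1
    · obtain ⟨hK1, hKR⟩ := mem_filter.1 hK
      obtain ⟨hK2, hK3⟩ := mem_filter.1 hK1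
      have hRK : R ⊆ K := hKR ▸ (cherryOf_spec (mem_conns.1 hK2).2 (show 2 ≤ K.card by omega)).1
      obtain ⟨j, hj⟩ : ∃ j, K.card = j + 2 := ⟨K.card - 2, by omega⟩
      rw [card_sdiff_of_subset hRK, hR2, hj, Nat.add_sub_cancel]
      have hj1 : 1 ≤ j := by omega
      have hb : 3 * r / 40 ≤ (3 / 40 + 1 / 1000 : ℝ) := by norm_num [hr]
      calc ((j + 2 : ℕ) : ℝ) * (2 * r) ^ (j + 2) * ε ^ j * (Q * T0)
          ≤ 2 * (3 / 2) ^ j * (2 * r) ^ (j + 2) * ε ^ j * (Q * T0) := by
            gcongr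
            exact card_le_geom j
        _ = 2 * (2 * r) ^ 2 * (3 * r * ε) ^ j * (Q * T0) := by
            rw [pow_add, show (3 : ℝ) * r * ε = 3 / 2 * (2 * r) * ε by ring,
              mul_pow (3 / 2 * (2 * r)) ε, mul_pow (3 / 2 : ℝ) (2 * r)]
            ring
        _ ≤ 2 * (2 * r) ^ 2 * ((3 / 40 + 1 / 1000) * (4 / (25 * (Δ : ℝ))) ^ j) * (Q * T0) := by
            refine mul_le_mul_of_nonneg_right (mul_le_mul_of_nonneg_left ?_ (by positivity))
              (by positivity)
            refine (pow_le_pow_left₀ (by positivity) (scaled_le hΔ hsm (by positivity) hb) j).trans ?_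
            rw [mul_pow]
            refine mul_le_mul_of_nonneg_right ?_ (by positivity)
            exact (pow_le_pow_of_le_one (by norm_num) (by norm_num) hj1).trans_eq (pow_one _)
        _ = _ := by ring
    · calc 2 * (2 * r) ^ 2 * (3 / 40 + 1 / 1000) * (Q * T0) * (5 / 4) ^ (verts R).card
          ≤ 2 * (2 * r) ^ 2 * (3 / 40 + 1 / 1000) * (Q * (r ^ 2 * Z R)) * (5 / 4) ^ 4 := by
            refine mul_le_mul (mul_le_mul_of_nonneg_left (mul_le_mul_of_nonneg_left hZR hQ0)
              (by positivity)) (pow_le_pow_right₀ (by norm_num) hcard) (by positivity)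
              (mul_nonneg (by positivity) (mul_nonneg hQ0 (mul_nonneg (by positivity) (hZ0 R))))
        _ = (2 * r) ^ 2 * (3 / 40 + 1 / 1000) * r ^ 2 * (5 / 4) ^ 4 * (2 * (Q * Z R)) := by ring
        _ ≤ 1 * (2 * (Q * Z R)) := mul_le_mul_of_nonneg_right (by norm_num [hr])
            (mul_nonneg (by norm_num) (mul_nonneg hQ0 (hZ0 R)))
        _ = _ := one_mul _
  -- the charges to cycles
  have hPsum : ∑ K ∈ conns E, P K ≤ ∑ C ∈ B, (cycLen C : ℝ) * (T C * Z C) := by
    simp only [hP, ← sum_filter]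
    rw [← sum_fiberwise_of_maps_to (g := cycOf) (t := B) (fun K hK => by
      obtain ⟨hK1, hK2, -⟩ := mem_filter.1 hK
      obtain ⟨hKE, hKc⟩ := mem_conns.1 hK1
      obtain ⟨h1, h2⟩ := cycOf_idem (hE.mono hKE) hK2
      obtain ⟨c1, -, c3, -⟩ := cycOf_spec (hE.mono hKE) hK2
      have hsub : cycOf K ⊆ K := c3 ▸ cycEdges_subset K _ _
      exact mem_filter.2 ⟨mem_conns.2 ⟨hsub.trans hKE, c3 ▸ conn_cycEdges (hE.mono hKE) c1⟩, h1, h2⟩)]
    refine sum_le_sum fun C hC => ?_
    obtain ⟨hC1, hC2, hC3⟩ := mem_filter.1 hC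
    obtain ⟨hCE, hCc⟩ := mem_conns.1 hC1
    obtain ⟨g1, -, g3, g4⟩ := cycOf_spec (hE.mono hCE) hC2
    have hverts : (verts C).card = cycLen C := by
      calc (verts C).card = (verts (cycEdges C (cycLen C) (cycFun C hC2))).card :=
            congrArg (fun D => (verts D).card) (hC3.symm.trans g3)
        _ = cycLen C := by
          rw [verts_cycEdges (hE.mono hCE) g1, card_image_of_injOn, card_range]
          exact fun i hi j hj hij => g1.2.1 i (mem_range.1 hi) j (mem_range.1 hj) hij
    have hT' := hTpos C hC1 hC2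
    refine (fiber_sum_le hΔ hdeg C hCc.1 _ ((filter_subset _ _).trans (filter_subset _ _))
      (fun K hK => ?_) _ (c := (cycLen C : ℝ) * (1 / 2) ^ cycLen C * (T C * Z C))
      (mul_nonneg (by positivity) (mul_nonneg hT' (hZ0 C))) fun K hK => ?_).trans ?_
    · obtain ⟨hK1, hKC⟩ := mem_filter.1 hK
      obtain ⟨hK2, hK3, -⟩ := mem_filter.1 hK1
      obtain ⟨-, -, c3, -⟩ := cycOf_spec (hE.mono (mem_conns.1 hK2).1) hK3
      rw [← hKC, c3]
      exact cycEdges_subset K _ _
    · obtain ⟨hK1, hKC⟩ := mem_filter.1 hK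
      obtain ⟨hK2, hK3, -⟩ := mem_filter.1 hK1
      obtain ⟨-, -, -, c4⟩ := cycOf_spec (hE.mono (mem_conns.1 hK2).1) hK3
      have hlen : cycLen K = cycLen C := by rw [← c4, hKC, ← g4, hC3]
      simp only [hT, hlen, hKC]
      exact le_of_eq (by ring)
    · rw [hverts]
      calc (cycLen C : ℝ) * (1 / 2) ^ cycLen C * (T C * Z C) * (5 / 4) ^ cycLen C
          = (cycLen C : ℝ) * (T C * Z C) * (1 / 2 * (5 / 4)) ^ cycLen C := by rw [mul_pow]; ring
        _ ≤ _ := mul_le_of_le_one_right (mul_nonneg (by positivity) (mul_nonneg hT' (hZ0 C)))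
            (pow_le_one₀ (by norm_num) (by norm_num))
  have hsum := sum_le_sum term
  simp only [sum_sub_distrib, sum_add_distrib, ← sum_filter] at hsum
  simp only [← hA, ← hB] at hsum
  have hA' : ∑ K ∈ A, 2 * (Q * Z K) = ∑ R ∈ A, 2 * (Q * Z R) := rfl
  refine le_trans ?_ hsum
  linarith

end Vale.Agent.P050.Local
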