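import Vale.Agent.P050.Local.Edges

/-!
Cycles and leaves of connected edge sets.

Proof notes.  The end of a longest path is a leaf unless it closes a cycle.  A shortest cycle is
induced; if a connected set without leaves is larger than its shortest cycle, a longest path
leaving the cycle closes a second cycle, and the two cycles so obtained show that at least half as
many edges again lie outside the first one.
-/

namespace Vale.Agent.P050.Local

open Finset

set_option linter.unusedSectionVars false

variable {V : Type} [DecidableEq V]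

/-- An edge between `a` and `b`, in either direction. -/
def Link (K : Finset (V × V)) (a b : V) : Prop := (a, b) ∈ K ∨ (b, a) ∈ K

/-- A cycle of length `n`, as a periodically read function. -/
def IsCyc (K : Finset (V × V)) (n : ℕ) (c : ℕ → V) : Prop :=
  3 ≤ n ∧ (∀ i < n, ∀ j < n, c i = c j → i = j) ∧ ∀ i < n, Link K (c i) (c ((i + 1) % n))

/-- The edges of a cycle, in either direction. -/
def cycEdges (K : Finset (V × V)) (n : ℕ) (c : ℕ → V) : Finset (V × V) :=
  K.filter fun e => ∃ i ∈ range n, e = (c i, c ((i + 1) % n)) ∨ e = (c ((i + 1) % n), c i)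

/-- The edges run from the colour `false` to the colour `true`. -/
def Bip (col : V → Bool) (K : Finset (V × V)) : Prop :=
  ∀ e ∈ K, col e.1 = false ∧ col e.2 = true

theorem Bip.mono {col : V → Bool} {K L : Finset (V × V)} (h : Bip col K) (hLK : L ⊆ K) :
    Bip col L := fun e he => h e (hLK he)

theorem Link.symm {K : Finset (V × V)} {a b : V} (h : Link K a b) : Link K b a := Or.symm h

theorem Link.mono {K L : Finset (V × V)} {a b : V} (h : Link K a b) (hKL : K ⊆ L) : Link L a b :=
  h.imp (fun h => hKL h) (fun h => hKL h)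

theorem Link.ne {col : V → Bool} {K : Finset (V × V)} (hK : Bip col K) {a b : V}
    (h : Link K a b) : a ≠ b := by
  rintro rfl
  rcases h with h | h <;>
  · obtain ⟨h1, h2⟩ := hK _ h
    rw [h1] at h2
    exact Bool.false_ne_true h2

theorem Link.col {col : V → Bool} {K : Finset (V × V)} (hK : Bip col K) {a b : V}
    (h : Link K a b) : col b = !col a := by
  rcases h with h | h <;> obtain ⟨h1, h2⟩ := hK _ h <;> simp_all

theorem Link.mem_verts_right {K : Finset (V × V)} {a b : V} (h : Link K a b) : b ∈ verts K := by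
  rcases h with h | h
  · exact snd_mem_verts h
  · exact fst_mem_verts h

/-- A vertex of degree at least two has a neighbour other than a given one. -/
theorem exists_other {col : V → Bool} {K : Finset (V × V)} (hK : Bip col K) {v : V}
    (hv : 2 ≤ degIn K v) (w : V) : ∃ u, Link K v u ∧ u ≠ w := by
  unfold degIn at hv
  obtain ⟨e, he, f, hf, hne⟩ := one_lt_card.1 (show 1 < _ from hv)
  obtain ⟨heK, hev⟩ := mem_filter.1 he
  obtain ⟨hfK, hfv⟩ := mem_filter.1 hf
  by_contra h
  push Not at h
  obtain ⟨e1, e2⟩ := e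
  obtain ⟨f1, f2⟩ := f
  obtain ⟨a1, a2⟩ := hK _ heK
  obtain ⟨b1, b2⟩ := hK _ hfK
  simp only at hev hfv a1 a2 b1 b2
  rcases hev with rfl | rfl <;> rcases hfv with hfv | hfv
  · subst hfv
    exact hne (by rw [h e2 (Or.inl heK), h f2 (Or.inl hfK)])
  · subst hfv; rw [a1] at b2; exact Bool.false_ne_true b2
  · subst hfv; rw [b1] at a2; exact Bool.false_ne_true a2
  · subst hfv
    exact hne (by rw [h e1 (Or.inr heK), h f1 (Or.inr hfK)])

theorem degIn_pos {K : Finset (V × V)} {v : V} (hv : v ∈ verts K) : 1 ≤ degIn K v := by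
  obtain ⟨e, he, hev⟩ := mem_verts.1 hv
  exact card_pos.2 ⟨e, mem_filter.2 ⟨he, hev⟩⟩

/-- A path with `l` edges. -/
def IsPath (K : Finset (V × V)) (l : ℕ) (p : ℕ → V) : Prop :=
  (∀ i ≤ l, ∀ j ≤ l, p i = p j → i = j) ∧ ∀ i < l, Link K (p i) (p (i + 1))

/-- A longest path among those with a property. -/
theorem exists_longest [Fintype V] (P : ℕ → (ℕ → V) → Prop)
    (hP : ∀ l p, P l p → ∀ i ≤ l, ∀ j ≤ l, p i = p j → i = j) {l0 : ℕ} {p0 : ℕ → V}
    (h0 : P l0 p0) : ∃ l p, P l p ∧ l0 ≤ l ∧ ∀ q, ¬P (l + 1) q := by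
  classical
  have hb : ∀ l p, P l p → l ≤ Fintype.card V := by
    intro l p h
    have h1 := Finset.card_le_univ ((range (l + 1)).image p)
    rw [card_image_of_injOn fun i hi j hj hij => hP l p h i
      (Nat.lt_succ_iff.1 (mem_range.1 hi)) j (Nat.lt_succ_iff.1 (mem_range.1 hj)) hij,
      card_range] at h1
    omega
  set l := Nat.findGreatest (fun l => ∃ p, P l p) (Fintype.card V) with hl
  obtain ⟨p, hp⟩ := Nat.findGreatest_spec (P := fun l => ∃ p, P l p) (hb _ _ h0) ⟨p0, h0⟩
  refine ⟨l, p, hp, Nat.le_findGreatest (hb _ _ h0) ⟨p0, h0⟩, fun q hq => ?_⟩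
  exact Nat.findGreatest_is_greatest (P := fun l => ∃ p, P l p) (Nat.lt_succ_self l) (hb _ _ hq)
    ⟨q, hq⟩

/-- The end of a longest path is a leaf if there is no cycle. -/
theorem path_end_leaf [Fintype V] {col : V → Bool} {K : Finset (V × V)} (hK : Bip col K)
    (hno : ∀ n c, ¬IsCyc K n c) {l : ℕ} {p : ℕ → V} (hl : 1 ≤ l) (hp : IsPath K l p)
    (hmax : ∀ q, ¬IsPath K (l + 1) q) : degIn K (p l) = 1 := by
  have hlast : Link K (p (l - 1)) (p l) := by
    have := hp.2 (l - 1) (by omega)
    rwa [Nat.sub_add_cancel hl] at this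
  refine le_antisymm ?_ (degIn_pos hlast.mem_verts_right)
  by_contra h
  obtain ⟨u, hu, hne⟩ := exists_other hK (show 2 ≤ degIn K (p l) by omega) (p (l - 1))
  by_cases hin : ∃ j ≤ l, p j = u
  · obtain ⟨j, hj, rfl⟩ := hin
    have hjl : j ≠ l := fun h' => hu.ne hK (by rw [h'])
    have hjl' : j ≠ l - 1 := fun h' => hne (by rw [h'])
    refine hno (l - j + 1) (fun i => p (j + i)) ⟨by omega, fun a ha b hb hab => ?_, fun i hi => ?_⟩
    · have := hp.1 _ (by omega) _ (by omega) hab
      omega
    · rcases Nat.lt_or_ge (i + 1) (l - j + 1) with hi' | hi'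
      · rw [Nat.mod_eq_of_lt hi']
        exact hp.2 (j + i) (by omega)
      · rw [show i + 1 = l - j + 1 by omega, Nat.mod_self]
        simp only [Nat.add_zero]
        rw [show j + i = l by omega]
        exact hu
  · push Not at hin
    refine hmax (fun i => if i ≤ l then p i else u) ⟨fun i hi j hj hij => ?_, fun i hi => ?_⟩
    · simp only at hij
      split_ifs at hij with h1 h2 h2
      · exact hp.1 i h1 j h2 hij
      · exact absurd hij (hin i h1)
      · exact absurd hij.symm (hin j h2)
      · omega
    · simp only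
      rw [if_pos (show i ≤ l by omega)]
      split_ifs with h1
      · exact hp.2 i (by omega)
      · rw [show i = l by omega]
        exact hu

/-- A forest with an edge has two leaves. -/
theorem two_leaves [Fintype V] {col : V → Bool} {K : Finset (V × V)} (hK : Bip col K)
    (hne : K.Nonempty) (hno : ∀ n c, ¬IsCyc K n c) :
    ∃ v w, v ≠ w ∧ degIn K v = 1 ∧ degIn K w = 1 := by
  obtain ⟨⟨a, b⟩, hab⟩ := hne
  have h0 : IsPath K 1 (fun i => if i = 0 then a else b) := by
    refine ⟨fun i hi j hj hij => ?_, fun i hi => ?_⟩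
    · have hab' : a ≠ b := Link.ne hK (Or.inl hab)
      simp only at hij
      split_ifs at hij <;> first | omega | exact absurd hij hab' | exact absurd hij.symm hab'
    · obtain rfl : i = 0 := by omega
      exact Or.inl (by simpa using hab)
  obtain ⟨l, p, hp, hl, hmax⟩ := exists_longest (IsPath K) (fun _ _ h => h.1) h0
  have hrev : ∀ m q, IsPath K m q → IsPath K m (fun i => q (m - i)) := by
    intro m q hq
    refine ⟨fun i hi j hj hij => ?_, fun i hi => ?_⟩
    · have := hq.1 _ (Nat.sub_le m i) _ (Nat.sub_le m j) hij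
      omega
    · have := hq.2 (m - (i + 1)) (by omega)
      rw [show m - (i + 1) + 1 = m - i by omega] at this
      exact this.symm
  refine ⟨p l, p 0, fun h => ?_, path_end_leaf hK hno hl hp hmax, ?_⟩
  · have := hp.1 l le_rfl 0 (Nat.zero_le _) h
    omega
  · simpa using path_end_leaf hK hno hl (hrev l p hp) hmax

theorem cycEdges_subset (K : Finset (V × V)) (n : ℕ) (c : ℕ → V) : cycEdges K n c ⊆ K :=
  filter_subset _ _

theorem isCyc_cycEdges {K : Finset (V × V)} {n : ℕ} {c : ℕ → V} (h : IsCyc K n c) :
    IsCyc (cycEdges K n c) n c :=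
  ⟨h.1, h.2.1, fun i hi => (h.2.2 i hi).imp
    (fun he => mem_filter.2 ⟨he, i, mem_range.2 hi, Or.inl rfl⟩)
    (fun he => mem_filter.2 ⟨he, i, mem_range.2 hi, Or.inr rfl⟩)⟩

theorem IsCyc.mono {K L : Finset (V × V)} {n : ℕ} {c : ℕ → V} (h : IsCyc K n c) (hKL : K ⊆ L) :
    IsCyc L n c := ⟨h.1, h.2.1, fun i hi => (h.2.2 i hi).mono hKL⟩

open scoped Classical in
/-- The edge joining the `i`th vertex of a cycle to the next one. -/
noncomputable def cycEdge (K : Finset (V × V)) (n : ℕ) (c : ℕ → V) (i : ℕ) : V × V :=
  if (c i, c ((i + 1) % n)) ∈ K then (c i, c ((i + 1) % n)) else (c ((i + 1) % n), c i)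

theorem cycEdge_mem {K : Finset (V × V)} {n : ℕ} {c : ℕ → V} (h : IsCyc K n c) {i : ℕ}
    (hi : i < n) : cycEdge K n c i ∈ K := by
  unfold cycEdge
  split_ifs with h1
  · exact h1
  · exact (h.2.2 i hi).resolve_left h1

theorem succ_mod_cases {n i : ℕ} (hi : i < n) :
    (i + 1) % n = i + 1 ∧ i + 1 < n ∨ (i + 1) % n = 0 ∧ i + 1 = n := by
  rcases Nat.lt_or_ge (i + 1) n with h | h
  · exact Or.inl ⟨Nat.mod_eq_of_lt h, h⟩
  · have e : i + 1 = n := by omega
    exact Or.inr ⟨by rw [e, Nat.mod_self], e⟩

theorem cycEdges_eq_image {col : V → Bool} {K : Finset (V × V)} (hK : Bip col K) {n : ℕ}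
    {c : ℕ → V} (h : IsCyc K n c) : cycEdges K n c = (range n).image (cycEdge K n c) := by
  ext e
  simp only [cycEdges, mem_filter, mem_image, mem_range]
  constructor
  · rintro ⟨he, i, hi, h1 | h1⟩
    · exact ⟨i, hi, by rw [cycEdge, if_pos (h1 ▸ he), h1]⟩
    · refine ⟨i, hi, ?_⟩
      rw [cycEdge, if_neg, h1]
      intro hc
      obtain ⟨a1, a2⟩ := hK _ hc
      obtain ⟨b1, b2⟩ := hK _ (h1 ▸ he)
      rw [a1] at b2
      exact Bool.false_ne_true b2
  · rintro ⟨i, hi, rfl⟩
    refine ⟨cycEdge_mem h hi, i, hi, ?_⟩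
    unfold cycEdge
    split_ifs <;> simp

theorem cycEdge_injOn {K : Finset (V × V)} {n : ℕ} {c : ℕ → V} (h : IsCyc K n c) :
    Set.InjOn (cycEdge K n c) (range n : Finset ℕ) := by
  intro i hi j hj hij
  rw [mem_coe, mem_range] at hi hj
  obtain ⟨h3, hinj, -⟩ := h
  have hm : ∀ k, (k + 1) % n < n := fun k => Nat.mod_lt _ (by omega)
  have si := succ_mod_cases hi
  have sj := succ_mod_cases hj
  unfold cycEdge at hij
  split_ifs at hij <;> simp only [Prod.mk.injEq] at hij <;> obtain ⟨a, b⟩ := hij
  · exact hinj i hi j hj a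
  · have := hinj i hi _ (hm j) a; have := hinj _ (hm i) j hj b; omega
  · have := hinj _ (hm i) j hj a; have := hinj i hi _ (hm j) b; omega
  · exact hinj i hi j hj b

theorem card_cycEdges {col : V → Bool} {K : Finset (V × V)} (hK : Bip col K) {n : ℕ}
    {c : ℕ → V} (h : IsCyc K n c) : (cycEdges K n c).card = n := by
  rw [cycEdges_eq_image hK h, card_image_of_injOn (cycEdge_injOn h), card_range]

theorem verts_cycEdges {col : V → Bool} {K : Finset (V × V)} (hK : Bip col K) {n : ℕ}
    {c : ℕ → V} (h : IsCyc K n c) : verts (cycEdges K n c) = (range n).image c := by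
  ext v
  rw [mem_verts, mem_image]
  constructor
  · rintro ⟨e, he, hev⟩
    obtain ⟨-, i, hi, h1 | h1⟩ := mem_filter.1 he <;> subst h1 <;>
      rcases hev with hev | hev <;> simp only at hev <;> subst hev
    all_goals first
      | exact ⟨i, hi, rfl⟩
      | exact ⟨(i + 1) % n, mem_range.2 (Nat.mod_lt _ (by have := h.1; omega)), rfl⟩
  · rintro ⟨i, hi, rfl⟩
    refine ⟨cycEdge K n c i, ?_, ?_⟩
    · rw [cycEdges_eq_image hK h]; exact mem_image_of_mem _ hi
    · unfold cycEdge
      split_ifs <;> simp

theorem cyc_even {col : V → Bool} {K : Finset (V × V)} (hK : Bip col K) {n : ℕ} {c : ℕ → V}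
    (h : IsCyc K n c) : Even n := by
  have step : ∀ i, i < n → (col (c i) = col (c 0) ↔ Even i) := by
    intro i
    induction i with
    | zero => simp
    | succ i ih =>
      intro hi
      have h1 := (h.2.2 i (by omega)).col hK
      rw [Nat.mod_eq_of_lt hi] at h1
      rw [h1, Nat.even_add_one, ← ih (by omega)]
      cases col (c i) <;> cases col (c 0) <;> simp
  have h3 := h.1
  have h1 := (h.2.2 (n - 1) (by omega)).col hK
  rw [show n - 1 + 1 = n by omega, Nat.mod_self] at h1
  have h2 := step (n - 1) (by omega)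
  have h4 : ¬Even (n - 1) := fun he => by
    rw [h2.2 he] at h1
    cases hb : col (c 0) <;> rw [hb] at h1 <;> simp at h1
  rw [show n = (n - 1) + 1 by omega, Nat.even_add_one]
  exact h4

/-- A shortest cycle is induced. -/
theorem cyc_induced {col : V → Bool} {K : Finset (V × V)} (hK : Bip col K) {n : ℕ} {c : ℕ → V}
    (h : IsCyc K n c) (hmin : ∀ m d, IsCyc K m d → n ≤ m) {i j : ℕ} (hi : i < n) (hj : j < n)
    (hl : Link K (c i) (c j)) : j = (i + 1) % n ∨ i = (j + 1) % n := by
  wlog hij : i ≤ j generalizing i j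
  · exact (this hj hi hl.symm (le_of_not_ge hij)).symm
  have hne : i ≠ j := fun h' => hl.ne hK (by rw [h'])
  by_contra hcon
  push Not at hcon
  obtain ⟨h1, h2⟩ := hcon
  have hi1 : j ≠ i + 1 := fun h' => h1 (by rw [Nat.mod_eq_of_lt (by omega)]; exact h')
  have hwrap : ¬(i = 0 ∧ j + 1 = n) := fun ⟨a, b⟩ => h2 (by rw [b, Nat.mod_self]; exact a)
  have hc : IsCyc K (j - i + 1) (fun t => c (i + t)) := by
    refine ⟨by omega, fun a ha b hb hab => ?_, fun t ht => ?_⟩
    · have := h.2.1 _ (by omega) _ (by omega) hab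
      omega
    · rcases Nat.lt_or_ge (t + 1) (j - i + 1) with ht' | ht'
      · rw [Nat.mod_eq_of_lt ht']
        have := h.2.2 (i + t) (by omega)
        rwa [Nat.mod_eq_of_lt (show i + t + 1 < n by omega)] at this
      · rw [show t + 1 = j - i + 1 by omega, Nat.mod_self]
        simp only [Nat.add_zero]
        rw [show i + t = j by omega]
        exact hl.symm
  have := hmin _ _ hc
  omega

theorem induced_edge {col : V → Bool} {K : Finset (V × V)} (hK : Bip col K) {n : ℕ} {c : ℕ → V}
    (h : IsCyc K n c) (hmin : ∀ m d, IsCyc K m d → n ≤ m) {e : V × V} (he : e ∈ K)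
    (h1 : e.1 ∈ verts (cycEdges K n c)) (h2 : e.2 ∈ verts (cycEdges K n c)) :
    e ∈ cycEdges K n c := by
  rw [verts_cycEdges hK h, mem_image] at h1 h2
  obtain ⟨i, hi, hi'⟩ := h1
  obtain ⟨j, hj, hj'⟩ := h2
  rw [mem_range] at hi hj
  rcases cyc_induced hK h hmin hi hj (Or.inl (by rw [hi', hj']; exact he)) with h' | h'
  · exact mem_filter.2 ⟨he, i, mem_range.2 hi, Or.inl (by rw [← h', hi', hj'])⟩
  · exact mem_filter.2 ⟨he, j, mem_range.2 hj, Or.inr (by rw [← h', hi', hj'])⟩

/-- Turning a cycle. -/
theorem cyc_rotate {K : Finset (V × V)} {n : ℕ} {c : ℕ → V} (h : IsCyc K n c) (a : ℕ) :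
    IsCyc K n fun i => c ((a + i) % n) := by
  have hn : 0 < n := by have := h.1; omega
  refine ⟨h.1, fun i hi j hj hij => ?_, fun i hi => ?_⟩
  · have h1 : (a + i) % n = (a + j) % n :=
      h.2.1 _ (Nat.mod_lt _ hn) _ (Nat.mod_lt _ hn) hij
    have h2 : i % n = j % n := Nat.ModEq.add_left_cancel' a h1
    rwa [Nat.mod_eq_of_lt hi, Nat.mod_eq_of_lt hj] at h2
  · simp only
    have h1 := h.2.2 _ (Nat.mod_lt (a + i) hn)
    rw [Nat.mod_add_mod] at h1
    rwa [Nat.add_mod_mod, ← Nat.add_assoc]

theorem cycEdges_rotate {K : Finset (V × V)} {n : ℕ} {c : ℕ → V} (hn : 0 < n) (a : ℕ) :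
    cycEdges K n (fun i => c ((a + i) % n)) ⊆ cycEdges K n c := by
  intro e he
  obtain ⟨heK, i, -, hie⟩ := mem_filter.1 he
  refine mem_filter.2 ⟨heK, (a + i) % n, mem_range.2 (Nat.mod_lt _ hn), ?_⟩
  simp only [Nat.add_mod_mod] at hie
  rw [Nat.mod_add_mod]
  rwa [← Nat.add_assoc] at hie

/-- A connected set without leaves that is more than its shortest cycle is half as large again. -/
theorem card_ge_of_no_leaf [Fintype V] {col : V → Bool} {K : Finset (V × V)} (hK : Bip col K)
    (hc : Conn K) (hleaf : ∀ v, degIn K v ≠ 1) {n : ℕ} {c : ℕ → V} (h : IsCyc K n c)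
    (hmin : ∀ m d, IsCyc K m d → n ≤ m) (hne : cycEdges K n c ≠ K) :
    n ≤ 2 * (K \ cycEdges K n c).card := by
  classical
  have hn3 := h.1
  have hn : 0 < n := by omega
  set C := cycEdges K n c with hC
  have hCne : C.Nonempty := by
    rw [← card_pos, hC, card_cycEdges hK h]; omega
  obtain ⟨f, hf, hft⟩ := hc.2 C (cycEdges_subset K n c) hCne hne
  obtain ⟨hfK, hfC⟩ := mem_sdiff.1 hf
  -- turn the cycle so that the edge leaves at its start
  obtain ⟨v, w, hvw, hv, hw, hfe⟩ : ∃ v w, Link K v w ∧ v ∈ verts C ∧ w ∉ verts C ∧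
      (f = (v, w) ∨ f = (w, v)) := by
    rcases hft with h1 | h1
    · exact ⟨f.1, f.2, Or.inl hfK, h1, fun h2 => hfC (induced_edge hK h hmin hfK h1 h2), Or.inl rfl⟩
    · exact ⟨f.2, f.1, Or.inr hfK, h1, fun h2 => hfC (induced_edge hK h hmin hfK h2 h1), Or.inr rfl⟩
  have hverts : verts C = (range n).image c := verts_cycEdges hK h
  obtain ⟨a, ha, hav⟩ := mem_image.1 (hverts ▸ hv)
  set d : ℕ → V := fun i => c ((a + i) % n) with hd
  have hdc : IsCyc K n d := cyc_rotate h a
  have hd0 : d 0 = v := by
    simp only [hd, Nat.add_zero, Nat.mod_eq_of_lt (mem_range.1 ha)]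
    exact hav
  have hdC : verts (cycEdges K n d) = verts C := by
    refine eq_of_subset_of_card_le (verts_mono (cycEdges_rotate hn a)) ?_
    rw [verts_cycEdges hK hdc, hverts, card_image_of_injOn fun i hi j hj hij =>
        hdc.2.1 i (mem_range.1 hi) j (mem_range.1 hj) hij]
    exact card_image_le.trans (le_of_eq (by simp))
  have hin : ∀ i < n, d i ∈ verts C := fun i hi => by
    rw [← hdC, verts_cycEdges hK hdc]
    exact mem_image_of_mem _ (mem_range.2 hi)
  -- a longest path outside
  let P : ℕ → (ℕ → V) → Prop := fun l p =>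
    IsPath K l p ∧ p 0 = v ∧ ∀ i, 1 ≤ i → i ≤ l → p i ∉ verts C
  have h0 : P 1 (fun i => if i = 0 then v else w) := by
    refine ⟨⟨fun i hi j hj hij => ?_, fun i hi => ?_⟩, by simp, fun i h1 h2 => ?_⟩
    · have hne' : v ≠ w := fun h' => hw (h' ▸ hv)
      simp only at hij
      split_ifs at hij <;> first | omega | exact absurd hij hne' | exact absurd hij.symm hne'
    · obtain rfl : i = 0 := by omega
      simpa using hvw
    · simp only
      rw [if_neg (show i ≠ 0 by omega)]
      exact hw
  obtain ⟨l, p, ⟨hp, hp0, hpC⟩, hl, hmax⟩ := exists_longest P (fun _ _ h => h.1.1) h0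
  have hlast : Link K (p (l - 1)) (p l) := by
    have := hp.2 (l - 1) (by omega)
    rwa [Nat.sub_add_cancel hl] at this
  obtain ⟨u, hu, hune⟩ := exists_other hK
    (show 2 ≤ degIn K (p l) by
      have := degIn_pos hlast.mem_verts_right
      have := hleaf (p l)
      omega) (p (l - 1))
  have hold : u ∈ verts C ∨ ∃ j ≤ l, p j = u := by
    by_contra hcon
    push Not at hcon
    refine hmax (fun i => if i ≤ l then p i else u) ⟨⟨fun i hi j hj hij => ?_, fun i hi => ?_⟩,
      by simp [hp0], fun i h1 h2 => ?_⟩
    · simp only at hij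
      split_ifs at hij with g1 g2 g2
      · exact hp.1 i g1 j g2 hij
      · exact absurd hij (hcon.2 i g1)
      · exact absurd hij.symm (hcon.2 j g2)
      · omega
    · simp only
      rw [if_pos (show i ≤ l by omega)]
      split_ifs with g1
      · exact hp.2 i (by omega)
      · rw [show i = l by omega]; exact hu
    · simp only
      split_ifs with g1
      · exact hpC i h1 g1
      · exact hcon.1
  -- the edges outside the cycle
  set q : ℕ → V := fun i => if i ≤ l then p i else u with hq
  have hqlink : ∀ i < l + 1, Link K (q i) (q (i + 1)) := by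
    intro i hi
    simp only [hq]
    rw [if_pos (show i ≤ l by omega)]
    split_ifs with g1
    · exact hp.2 i (by omega)
    · rw [show i = l by omega]; exact hu
  set E' : ℕ → V × V := fun i => if (q i, q (i + 1)) ∈ K then (q i, q (i + 1))
    else (q (i + 1), q i) with hE'
  have hcard : l + 1 ≤ (K \ C).card := by
    refine le_of_eq_of_le ?_ (card_le_card (s := (range (l + 1)).image E') fun e he => ?_)
    · rw [card_image_of_injOn, card_range]
      intro i hi j hj hij
      rw [mem_coe, mem_range] at hi hj
      have key : ∀ i j, i < j → j < l + 1 → E' i ≠ E' j := by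
        intro i j hlt hj hij
        have hpi : ∀ t, t ≤ l → q t = p t := fun t ht => if_pos ht
        have hcase : q i = q j ∨ q i = q (j + 1) ∧ q (i + 1) = q j := by
          simp only [hE'] at hij
          split_ifs at hij <;> simp only [Prod.mk.injEq] at hij <;> obtain ⟨x1, x2⟩ := hij
          · exact Or.inl x1
          · exact Or.inr ⟨x1, x2⟩
          · exact Or.inr ⟨x2, x1⟩
          · exact Or.inl x2
        rcases hcase with x | ⟨x1, x2⟩
        · rw [hpi i (by omega), hpi j (by omega)] at x
          have := hp.1 _ (by omega) _ (by omega) x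
          omega
        · rw [hpi (i + 1) (by omega), hpi j (by omega)] at x2
          have hj1 := hp.1 _ (by omega) _ (by omega) x2
          rcases Nat.lt_or_ge j l with hjl | hjl
          · rw [hpi i (by omega), hpi (j + 1) (by omega)] at x1
            have := hp.1 _ (by omega) _ (by omega) x1
            omega
          · rw [hpi i (by omega)] at x1
            simp only [hq, if_neg (show ¬j + 1 ≤ l by omega)] at x1
            exact hune (by rw [show l - 1 = i by omega, x1])
      rcases Nat.lt_trichotomy i j with hlt | rfl | hlt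
      · exact absurd hij (key i j hlt hj)
      · rfl
      · exact absurd hij.symm (key j i hlt hi)
    · obtain ⟨i, hi, rfl⟩ := mem_image.1 he
      rw [mem_range] at hi
      refine mem_sdiff.2 ⟨?_, fun hmem => ?_⟩
      · simp only [hE']
        split_ifs with g1
        · exact g1
        · exact (hqlink i hi).resolve_left g1
      · have hout : q i ∉ verts C ∨ q (i + 1) ∉ verts C := by
          rcases Nat.lt_or_ge i l with hil | hil
          · exact Or.inr (by simp only [hq, if_pos (show i + 1 ≤ l by omega)]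
                             exact hpC _ (by omega) (by omega))
          · exact Or.inl (by simp only [hq, if_pos (show i ≤ l by omega)]
                             exact hpC _ (by omega) (by omega))
        simp only [hE'] at hmem
        split_ifs at hmem
        · exact hout.elim (fun g => g (fst_mem_verts hmem)) (fun g => g (snd_mem_verts hmem))
        · exact hout.elim (fun g => g (snd_mem_verts hmem)) (fun g => g (fst_mem_verts hmem))
  rcases hold with huC | ⟨j, hj, hju⟩
  swap
  · have hjl : j ≠ l := fun h' => hu.ne hK (by rw [← hju, h'])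
    have hjl' : j ≠ l - 1 := fun h' => hune (by rw [← hju, h'])
    have hcyc : IsCyc K (l - j + 1) (fun i => p (j + i)) := by
      refine ⟨by omega, fun x hx z hz hxz => ?_, fun i hi => ?_⟩
      · have := hp.1 _ (by omega) _ (by omega) hxz
        omega
      · rcases Nat.lt_or_ge (i + 1) (l - j + 1) with hi' | hi'
        · rw [Nat.mod_eq_of_lt hi']
          exact hp.2 (j + i) (by omega)
        · rw [show i + 1 = l - j + 1 by omega, Nat.mod_self]
          simp only [Nat.add_zero]
          rw [show j + i = l by omega, hju]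
          exact hu
    have := hmin _ _ hcyc
    omega
  · rw [← hdC, verts_cycEdges hK hdc, mem_image] at huC
    obtain ⟨b, hb, hbu⟩ := huC
    rw [mem_range] at hb
    rcases Nat.eq_zero_or_pos b with hb0 | hb0
    · subst hb0
      have hl2 : 2 ≤ l := by
        by_contra hl2
        exact hune (by rw [← hbu, hd0, show l - 1 = 0 by omega, hp0])
      have hcyc : IsCyc K (l + 1) p := by
        refine ⟨by omega, fun x hx z hz hxz => hp.1 x (by omega) z (by omega) hxz, fun i hi => ?_⟩
        rcases Nat.lt_or_ge (i + 1) (l + 1) with hi' | hi'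
        · rw [Nat.mod_eq_of_lt hi']
          exact hp.2 i (by omega)
        · rw [show i + 1 = l + 1 by omega, Nat.mod_self, show i = l by omega, hp0, ← hd0, hbu]
          exact hu
      have := hmin _ _ hcyc
      omega
    · -- the two arcs of the cycle closed by the path
      have arc : ∀ (e : ℕ → V) (b : ℕ), IsCyc K n e → 0 < b → b < n → e 0 = v →
          (∀ i < n, e i ∈ verts C) → e b = u → n ≤ b + 1 + l := by
        intro e b he hb0 hbn he0 hein heu
        refine hmin (b + 1 + l) (fun i => if i ≤ b then e i else p (b + 1 + l - i))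
          ⟨by omega, fun x hx z hz hxz => ?_, fun i hi => ?_⟩
        · simp only at hxz
          split_ifs at hxz with g1 g2 g2
          · exact he.2.1 x (by omega) z (by omega) hxz
          · exact absurd (hxz ▸ hein x (by omega)) (hpC _ (by omega) (by omega))
          · exact absurd (hxz.symm ▸ hein z (by omega)) (hpC _ (by omega) (by omega))
          · have := hp.1 _ (by omega) _ (by omega) hxz
            omega
        · simp only
          rcases Nat.lt_or_ge (i + 1) (b + 1 + l) with hi' | hi'
          · rw [Nat.mod_eq_of_lt hi']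
            rcases Nat.lt_trichotomy i b with hib | hib | hib
            · rw [if_pos (by omega), if_pos (by omega)]
              have := he.2.2 i (by omega)
              rwa [Nat.mod_eq_of_lt (show i + 1 < n by omega)] at this
            · rw [if_pos (by omega), if_neg (by omega), hib, heu,
                show b + 1 + l - (b + 1) = l by omega]
              exact hu.symm
            · rw [if_neg (by omega), if_neg (by omega)]
              have := hp.2 (b + 1 + l - (i + 1)) (by omega)
              rw [show b + 1 + l - (i + 1) + 1 = b + 1 + l - i by omega] at this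
              exact this.symm
          · rw [show i + 1 = b + 1 + l by omega, Nat.mod_self, if_pos (Nat.zero_le b), he0,
              if_neg (show ¬i ≤ b by omega), show b + 1 + l - i = 1 by omega, ← hp0]
            exact (hp.2 0 (by omega)).symm
      have a1 := arc d b hdc hb0 hb hd0 hin hbu
      have hrev : IsCyc K n (fun i => d ((n - i) % n)) := by
        refine ⟨hdc.1, fun x hx z hz hxz => ?_, fun i hi => ?_⟩
        · have hx' := hdc.2.1 _ (Nat.mod_lt _ hn) _ (Nat.mod_lt _ hn) hxz
          rcases Nat.eq_zero_or_pos x with rfl | hx0 <;> rcases Nat.eq_zero_or_pos z with rfl | hz0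
          · rfl
          · rw [Nat.sub_zero, Nat.mod_self, Nat.mod_eq_of_lt (by omega)] at hx'; omega
          · rw [Nat.sub_zero, Nat.mod_self, Nat.mod_eq_of_lt (by omega)] at hx'; omega
          · rw [Nat.mod_eq_of_lt (by omega), Nat.mod_eq_of_lt (by omega)] at hx'; omega
        · simp only
          have h1 := hdc.2.2 (n - (i + 1)) (by omega)
          rw [show n - (i + 1) + 1 = n - i by omega] at h1
          rcases succ_mod_cases hi with ⟨g1, g2⟩ | ⟨g1, g2⟩
          · rw [g1, Nat.mod_eq_of_lt (show n - (i + 1) < n by omega)]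
            exact h1.symm
          · rw [g2, Nat.sub_self] at h1
            rw [g1, Nat.sub_zero, Nat.mod_self]
            exact h1.symm
      have a2 := arc _ (n - b) hrev (by omega) (by omega)
        (by simp only [Nat.sub_zero, Nat.mod_self]; exact hd0)
        (fun i hi => hin _ (Nat.mod_lt _ hn))
        (by rw [show n - (n - b) = b by omega, Nat.mod_eq_of_lt hb]; exact hbu)
      omega

end Vale.Agent.P050.Local
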