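import Mathlib

/-!
Sets of edges of a finite graph, given as pairs of vertices: components, attached sets and their
weighted count.

Proof notes.  A set is attached to `S` when each of its components meets `S`.  Removing an edge
at `S` leaves a set attached to `S` together with the other end, so the weighted count is at most
`a` to the sum of the degrees in `S` whenever `1 + x a^Δ ≤ a`.
-/

namespace Vale.Agent.P050.Local

open Finset

variable {V : Type} [DecidableEq V]

/-- An edge has an end in `S`. -/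
def Touch (S : Finset V) (e : V × V) : Prop := e.1 ∈ S ∨ e.2 ∈ S

instance (S : Finset V) (e : V × V) : Decidable (Touch S e) :=
  inferInstanceAs (Decidable (_ ∨ _))

/-- The vertices of a set of edges. -/
def verts (K : Finset (V × V)) : Finset V := K.image Prod.fst ∪ K.image Prod.snd

/-- The degree of a vertex in a set of edges. -/
def degIn (K : Finset (V × V)) (v : V) : ℕ := (K.filter fun e => e.1 = v ∨ e.2 = v).card

theorem mem_verts {K : Finset (V × V)} {v : V} :
    v ∈ verts K ↔ ∃ e ∈ K, e.1 = v ∨ e.2 = v := by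
  simp only [verts, mem_union, mem_image]
  constructor
  · rintro (⟨e, he, h⟩ | ⟨e, he, h⟩)
    · exact ⟨e, he, Or.inl h⟩
    · exact ⟨e, he, Or.inr h⟩
  · rintro ⟨e, he, h | h⟩
    · exact Or.inl ⟨e, he, h⟩
    · exact Or.inr ⟨e, he, h⟩

theorem fst_mem_verts {K : Finset (V × V)} {e : V × V} (he : e ∈ K) : e.1 ∈ verts K :=
  mem_verts.2 ⟨e, he, Or.inl rfl⟩

theorem snd_mem_verts {K : Finset (V × V)} {e : V × V} (he : e ∈ K) : e.2 ∈ verts K :=
  mem_verts.2 ⟨e, he, Or.inr rfl⟩

theorem verts_mono {K L : Finset (V × V)} (h : K ⊆ L) : verts K ⊆ verts L := fun v hv => by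
  obtain ⟨e, he, hev⟩ := mem_verts.1 hv
  exact mem_verts.2 ⟨e, h he, hev⟩

theorem touch_self {K : Finset (V × V)} {e : V × V} (he : e ∈ K) : Touch (verts K) e :=
  Or.inl (fst_mem_verts he)

theorem touch_comm {K : Finset (V × V)} {f : V × V} (h : Touch (verts K) f) :
    ∃ e ∈ K, Touch (verts {f}) e := by
  rcases h with h | h
  · obtain ⟨e, he, hev⟩ := mem_verts.1 h
    exact ⟨e, he, hev.imp (fun h' => by rw [h']; exact fst_mem_verts (mem_singleton_self f))
      (fun h' => by rw [h']; exact fst_mem_verts (mem_singleton_self f))⟩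
  · obtain ⟨e, he, hev⟩ := mem_verts.1 h
    exact ⟨e, he, hev.imp (fun h' => by rw [h']; exact snd_mem_verts (mem_singleton_self f))
      (fun h' => by rw [h']; exact snd_mem_verts (mem_singleton_self f))⟩

/-- `T` is a union of components of `F`. -/
def Closed (F T : Finset (V × V)) : Prop := ∀ f ∈ F, Touch (verts T) f → f ∈ T

/-- Connected nonempty sets of edges. -/
def Conn (K : Finset (V × V)) : Prop :=
  K.Nonempty ∧ ∀ T ⊆ K, T.Nonempty → T ≠ K → ∃ f ∈ K \ T, Touch (verts T) f

/-- Every component meets `S`. -/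
def Attached (S : Finset V) (K : Finset (V × V)) : Prop :=
  ∀ T ⊆ K, T.Nonempty → (∀ e ∈ T, ¬Touch S e) → ∃ f ∈ K \ T, Touch (verts T) f

theorem closed_compl {F T : Finset (V × V)} (h : Closed F T) : Closed F (F \ T) := by
  intro f hf ht
  rw [mem_sdiff]
  refine ⟨hf, fun hfT => ?_⟩
  obtain ⟨e, he, hte⟩ := touch_comm ht
  obtain ⟨he1, he2⟩ := mem_sdiff.1 he
  exact he2 (h e he1 (hte.imp (fun h' => verts_mono (singleton_subset_iff.2 hfT) h')
    (fun h' => verts_mono (singleton_subset_iff.2 hfT) h')))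

theorem conn_eq_of_closed {F K K' : Finset (V × V)} (hK : Conn K) (hKF : K ⊆ F)
    (hc : Closed F K') {e : V × V} (he : e ∈ K) (he' : e ∈ K') : K ⊆ K' := by
  by_contra h
  have hne : K ∩ K' ≠ K := fun h' => h (h' ▸ inter_subset_right)
  obtain ⟨f, hf, hfT⟩ := hK.2 _ inter_subset_left ⟨e, mem_inter.2 ⟨he, he'⟩⟩ hne
  obtain ⟨hf1, hf2⟩ := mem_sdiff.1 hf
  exact hf2 (mem_inter.2 ⟨hf1, hc f (hKF hf1) (hfT.imp (fun h' => verts_mono inter_subset_right h')
    (fun h' => verts_mono inter_subset_right h'))⟩)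

open scoped Classical in
/-- The component of `e` in `F`. -/
noncomputable def comp (F : Finset (V × V)) (e : V × V) : Finset (V × V) :=
  F.filter fun f => ∀ T, T ⊆ F → Closed F T → e ∈ T → f ∈ T

theorem comp_spec {F : Finset (V × V)} {e : V × V} (he : e ∈ F) :
    comp F e ⊆ F ∧ e ∈ comp F e ∧ Closed F (comp F e) ∧ Conn (comp F e) := by
  classical
  have hsub : comp F e ⊆ F := filter_subset _ _
  have hee : e ∈ comp F e := mem_filter.2 ⟨he, fun T _ _ h => h⟩
  have hmin : ∀ T, T ⊆ F → Closed F T → e ∈ T → comp F e ⊆ T := fun T hT hc heT g hg => by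
    rw [comp, mem_filter] at hg
    exact hg.2 T hT hc heT
  have hcl : Closed F (comp F e) := fun f hf ht => mem_filter.2 ⟨hf, fun T hT hc heT =>
    hc f hf (ht.imp (fun h => verts_mono (hmin T hT hc heT) h)
      (fun h => verts_mono (hmin T hT hc heT) h))⟩
  refine ⟨hsub, hee, hcl, ⟨e, hee⟩, fun T hT hTne hne => ?_⟩
  by_contra hno
  push Not at hno
  have hTc : Closed F T := fun f hf ht => by
    have hfc : f ∈ comp F e := hcl f hf (ht.imp (fun h => verts_mono hT h) (fun h => verts_mono hT h))
    by_contra hfT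
    exact hno f (mem_sdiff.2 ⟨hfc, hfT⟩) ht
  by_cases heT : e ∈ T
  · exact hne (Subset.antisymm hT fun g hg => (mem_filter.1 hg).2 T (hT.trans hsub) hTc heT)
  · obtain ⟨g, hg⟩ := hTne
    exact (mem_sdiff.1 ((mem_filter.1 (hT hg)).2 (F \ T) sdiff_subset (closed_compl hTc)
      (mem_sdiff.2 ⟨he, heT⟩))).2 hg

open scoped Classical in
/-- The connected subsets of `E`. -/
noncomputable def conns (E : Finset (V × V)) : Finset (Finset (V × V)) :=
  E.powerset.filter Conn

theorem mem_conns {E K : Finset (V × V)} : K ∈ conns E ↔ K ⊆ E ∧ Conn K := by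
  classical
  simp [conns]

/-- The edges without an end in `verts K`. -/
def avoid (E K : Finset (V × V)) : Finset (V × V) := E.filter fun f => ¬Touch (verts K) f

/-- Sorting all edge sets by the component of a distinguished edge. -/
theorem sum_card_mul (E : Finset (V × V)) (φ : Finset (V × V) → ℝ) :
    ∑ F ∈ E.powerset, (F.card : ℝ) * φ F =
      ∑ K ∈ conns E, (K.card : ℝ) * ∑ F ∈ (avoid E K).powerset, φ (K ∪ F) := by
  classical
  have step : ∀ F ∈ E.powerset, (F.card : ℝ) * φ F =
      ∑ K ∈ (conns E).filter (fun K => K ⊆ F ∧ Closed F K), (K.card : ℝ) * φ F := by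
    intro F hF
    rw [mem_powerset] at hF
    rw [← sum_mul]
    congr 1
    rw [← Nat.cast_sum]
    congr 1
    have hmaps : (F : Set (V × V)).MapsTo (comp F)
        ((conns E).filter (fun K => K ⊆ F ∧ Closed F K) : Finset _) := fun e he => by
      obtain ⟨h1, -, h3, h4⟩ := comp_spec he
      exact mem_filter.2 ⟨mem_conns.2 ⟨h1.trans hF, h4⟩, h1, h3⟩
    rw [card_eq_sum_card_fiberwise hmaps]
    refine sum_congr rfl fun K hK => ?_
    obtain ⟨hK1, hKF, hKc⟩ := mem_filter.1 hK
    obtain ⟨-, hKconn⟩ := mem_conns.1 hK1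
    congr 1
    ext e
    simp only [mem_filter]
    constructor
    · rintro ⟨he, rfl⟩
      exact (comp_spec he).2.1
    · intro heK
      obtain ⟨h1, h2, h3, h4⟩ := comp_spec (hKF heK)
      exact ⟨hKF heK, Subset.antisymm (conn_eq_of_closed h4 h1 hKc h2 heK)
        (conn_eq_of_closed hKconn hKF h3 heK h2)⟩
  rw [sum_congr rfl step, sum_comm' (t' := conns E)
    (s' := fun K => E.powerset.filter fun F => K ⊆ F ∧ Closed F K)
    (by intro F K; simp only [mem_filter]; tauto)]
  refine sum_congr rfl fun K hK => ?_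
  obtain ⟨hKE, -⟩ := mem_conns.1 hK
  rw [mul_sum]
  refine sum_bij' (fun F _ => F \ K) (fun F _ => K ∪ F) ?_ ?_ ?_ ?_ ?_
  · intro F hF
    obtain ⟨hFE, hKF, hcl⟩ := mem_filter.1 hF
    rw [mem_powerset] at hFE ⊢
    intro f hf
    obtain ⟨hf1, hf2⟩ := mem_sdiff.1 hf
    exact mem_filter.2 ⟨hFE hf1, fun ht => hf2 (hcl f hf1 ht)⟩
  · intro F hF
    rw [mem_powerset] at hF
    refine mem_filter.2 ⟨mem_powerset.2 (union_subset hKE (hF.trans (filter_subset _ _))),
      subset_union_left, fun f hf ht => ?_⟩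
    rcases mem_union.1 hf with hf | hf
    · exact hf
    · exact absurd ht (mem_filter.1 (hF hf)).2
  · intro F hF
    exact union_sdiff_of_subset (mem_filter.1 hF).2.1
  · intro F hF
    rw [mem_powerset] at hF
    ext f
    simp only [mem_sdiff, mem_union]
    exact ⟨fun h => h.1.resolve_left h.2, fun h =>
      ⟨Or.inr h, fun hfK => (mem_filter.1 (hF h)).2 (touch_self hfK)⟩⟩
  · intro F hF
    rw [union_sdiff_of_subset (mem_filter.1 hF).2.1]

/-- A connected set minus a nonempty part is attached to the vertices of that part. -/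
theorem attached_sdiff {K R : Finset (V × V)} (hK : Conn K) (hR : R ⊆ K) (hne : R.Nonempty) :
    Attached (verts R) (K \ R) := by
  intro T hT hTne hav
  have hTK : T ≠ K := fun h => by
    obtain ⟨e, he⟩ := hne
    exact (mem_sdiff.1 (hT (h ▸ hR he))).2 he
  obtain ⟨f, hf, hft⟩ := hK.2 T (hT.trans sdiff_subset) hTne hTK
  obtain ⟨hf1, hf2⟩ := mem_sdiff.1 hf
  refine ⟨f, mem_sdiff.2 ⟨mem_sdiff.2 ⟨hf1, fun hfR => ?_⟩, hf2⟩, hft⟩
  obtain ⟨e, he, hte⟩ := touch_comm hft
  exact hav e he (hte.imp (fun h => verts_mono (singleton_subset_iff.2 hfR) h)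
    (fun h => verts_mono (singleton_subset_iff.2 hfR) h))

theorem degIn_insert_ge {G : Finset (V × V)} {e : V × V} (he : e ∉ G) (v : V) :
    degIn G v + (if e.1 = v ∨ e.2 = v then 1 else 0) ≤ degIn (insert e G) v := by
  unfold degIn
  rw [filter_insert]
  split_ifs with h
  · rw [card_insert_of_notMem fun hc => he (mem_filter.1 hc).1]
  · simp

open scoped Classical in
/-- The weighted count of attached sets. -/
theorem attached_sum_le {x a : ℝ} (hx : 0 ≤ x) (ha : 1 ≤ a) {Δ : ℕ} (h : 1 + x * a ^ Δ ≤ a)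
    (G : Finset (V × V)) : ∀ S : Finset V, (∀ v, degIn G v ≤ Δ) →
      ∑ K ∈ G.powerset.filter (Attached S), x ^ K.card ≤ a ^ ∑ v ∈ S, degIn G v := by
  induction G using Finset.strongInduction with
  | _ G ih =>
    intro S hdeg
    by_cases hex : ∃ e ∈ G, Touch S e
    swap
    · push Not at hex
      have e1 : G.powerset.filter (Attached S) = {∅} := by
        ext K
        simp only [mem_filter, mem_powerset, mem_singleton]
        refine ⟨fun ⟨hK, hA⟩ => ?_, fun hK => ?_⟩
        · by_contra hne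
          obtain ⟨f, hf, -⟩ := hA K subset_rfl (nonempty_iff_ne_empty.2 hne)
            fun e he => hex e (hK he)
          exact (mem_sdiff.1 hf).2 (mem_sdiff.1 hf).1
        · subst hK
          exact ⟨empty_subset _, fun T hT hne _ =>
            absurd (subset_empty.1 hT) (nonempty_iff_ne_empty.1 hne)⟩
      rw [e1, sum_singleton, card_empty, pow_zero]
      exact one_le_pow₀ ha
    obtain ⟨e, heG, heS⟩ := hex
    obtain ⟨G', he, rfl⟩ : ∃ G', e ∉ G' ∧ G = insert e G' :=
      ⟨G.erase e, notMem_erase e G, (insert_erase heG).symm⟩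
    have hdeg' : ∀ v, degIn G' v ≤ Δ := fun v =>
      ((Nat.le_add_right _ _).trans (degIn_insert_ge he v)).trans (hdeg v)
    set S' := insert e.1 (insert e.2 S) with hS'
    have hA : ∀ K ⊆ G', Attached S (insert e K) → Attached S' K := by
      intro K hK hA T hT hne hav
      obtain ⟨f, hf, hft⟩ := hA T (hT.trans (subset_insert _ _)) hne fun g hg ht =>
        hav g hg (ht.imp (fun h => mem_insert_of_mem (mem_insert_of_mem h))
          (fun h => mem_insert_of_mem (mem_insert_of_mem h)))
      obtain ⟨hf1, hf2⟩ := mem_sdiff.1 hf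
      rcases mem_insert.1 hf1 with rfl | hf1
      · obtain ⟨g, hg, hgt⟩ := touch_comm hft
        refine absurd ?_ (hav g hg)
        have hv : ∀ v ∈ verts {f}, v ∈ S' := fun v hv => by
          obtain ⟨e', he', h'⟩ := mem_verts.1 hv
          rw [mem_singleton] at he'; subst he'
          rcases h' with rfl | rfl <;> simp [hS']
        exact hgt.imp (hv _) (hv _)
      · exact ⟨f, mem_sdiff.2 ⟨hf1, hf2⟩, hft⟩
    rw [sum_filter, sum_powerset_insert he, ← sum_filter]
    have t1 := ih G' (ssubset_insert he) S hdeg'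
    have t2 : ∑ K ∈ G'.powerset, (if Attached S (insert e K) then x ^ (insert e K).card else 0) ≤
        x * a ^ ∑ v ∈ S', degIn G' v := by
      refine le_trans ?_ (mul_le_mul_of_nonneg_left (ih G' (ssubset_insert he) S' hdeg') hx)
      rw [sum_filter, mul_sum]
      refine sum_le_sum fun K hK => ?_
      rw [mem_powerset] at hK
      rw [card_insert_of_notMem fun hc => he (hK hc), pow_succ']
      by_cases h1 : Attached S (insert e K)
      · rw [if_pos h1, if_pos (hA K hK h1)]
      · rw [if_neg h1]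
        split_ifs <;> positivity
    set d' := ∑ v ∈ S, degIn G' v with hd'
    have hd : d' + 1 ≤ ∑ v ∈ S, degIn (insert e G') v := by
      have h1 : (∑ v ∈ S, (degIn G' v + if e.1 = v ∨ e.2 = v then 1 else 0)) ≤
          ∑ v ∈ S, degIn (insert e G') v := sum_le_sum fun v _ => degIn_insert_ge he v
      rw [sum_add_distrib] at h1
      have h2 : 1 ≤ ∑ v ∈ S, if e.1 = v ∨ e.2 = v then 1 else 0 := by
        rcases heS with hv | hv
        · exact le_trans (by simp) (single_le_sum (fun v _ => Nat.zero_le _) hv)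
        · exact le_trans (by simp) (single_le_sum (fun v _ => Nat.zero_le _) hv)
      omega
    have hd2 : ∑ v ∈ S', degIn G' v ≤ d' + Δ := by
      have hins : ∀ {w : V} {T : Finset V}, ∑ v ∈ insert w T, degIn G' v ≤
          ∑ v ∈ T, degIn G' v + degIn G' w := fun {w T} => by
        by_cases hw : w ∈ T
        · simp [insert_eq_of_mem hw]
        · rw [sum_insert hw]; omega
      rcases heS with hv | hv
      · have e1 : S' = insert e.2 S := insert_eq_of_mem (mem_insert_of_mem hv)
        rw [e1]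
        exact hins.trans (Nat.add_le_add le_rfl (hdeg' e.2))
      · have e1 : S' = insert e.1 S := by rw [hS', insert_eq_of_mem hv]
        rw [e1]
        exact hins.trans (Nat.add_le_add le_rfl (hdeg' e.1))
    calc _ ≤ a ^ d' + x * a ^ (d' + Δ) := add_le_add t1 (t2.trans
          (mul_le_mul_of_nonneg_left (pow_le_pow_right₀ ha hd2) hx))
      _ = a ^ d' * (1 + x * a ^ Δ) := by rw [pow_add]; ring
      _ ≤ a ^ d' * a := mul_le_mul_of_nonneg_left h (by positivity)
      _ = a ^ (d' + 1) := (pow_succ _ _).symm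
      _ ≤ _ := pow_le_pow_right₀ ha hd

open scoped Classical in
/-- The count used in the estimates. -/
theorem attached_sum_le_pow {Δ : ℕ} (hΔ : 1 ≤ Δ) {G : Finset (V × V)} (hdeg : ∀ v, degIn G v ≤ Δ)
    (S : Finset V) :
    ∑ K ∈ G.powerset.filter (Attached S), (4 / (25 * (Δ : ℝ))) ^ K.card ≤ (5 / 4) ^ S.card := by
  have hD : (1 : ℝ) ≤ Δ := Nat.one_le_cast.2 hΔ
  have hpow : (1 + 1 / (5 * (Δ : ℝ))) ^ Δ ≤ 5 / 4 := by
    refine le_trans (pow_le_pow_left₀ (by positivity)
      ((add_comm _ _).trans_le (Real.add_one_le_exp _)) Δ) ?_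
    rw [← Real.exp_nat_mul, show (Δ : ℝ) * (1 / (5 * Δ)) = 1 / 5 by field_simp]
    refine le_trans (Real.exp_bound_div_one_sub_of_interval (by norm_num) (by norm_num)) ?_
    norm_num
  refine (attached_sum_le (a := 1 + 1 / (5 * (Δ : ℝ))) (Δ := Δ) (by positivity)
    (le_add_of_nonneg_right (by positivity)) ?_ G S hdeg).trans ?_
  · refine (add_le_add le_rfl (mul_le_mul_of_nonneg_left hpow (by positivity))).trans (le_of_eq ?_)
    field_simp
    ring
  · refine (pow_le_pow_right₀ (le_add_of_nonneg_right (by positivity))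
      (sum_le_card_nsmul S _ Δ fun v _ => hdeg v)).trans ?_
    rw [smul_eq_mul, Nat.mul_comm, pow_mul]
    exact pow_le_pow_left₀ (by positivity) hpow _

end Vale.Agent.P050.Local
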