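import Mathlib

/-!
Weighted closed walks of a symmetric bounded kernel.

Proof notes.  Splitting a closed walk of even length at two opposite vertices and using Cauchy
and Schwarz bounds its absolute value by two reflected walks, in which the two split weights
are `1`.  A run of `L` unit weights grows to `2 L + 1`, so the supremum over bounded weights is
attained by the unit weights.
-/

namespace Vale.Agent.P050.Local

open MeasureTheory

variable {Ω : Type} [MeasurableSpace Ω] {μ : Measure Ω} [IsProbabilityMeasure μ] {U : Ω → Ω → ℝ}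

/-- A walk from `a` to `b` with the weights of its inner vertices. -/
noncomputable def wpath (μ : Measure Ω) (U : Ω → Ω → ℝ) : List (Ω → ℝ) → Ω → Ω → ℝ
  | [] => U
  | w :: ws => fun a b => ∫ z, U a z * (w z * wpath μ U ws z b) ∂μ

/-- A closed walk. -/
noncomputable def wtrace (μ : Measure Ω) (U : Ω → Ω → ℝ) : List (Ω → ℝ) → ℝ
  | [] => 0
  | w :: ws => ∫ a, w a * wpath μ U ws a a ∂μ

/-- Admissible weights. -/
def GoodW (ws : List (Ω → ℝ)) : Prop := ∀ w ∈ ws, Measurable w ∧ ∀ z, |w z| ≤ 1

/-- The kernel is admissible. -/
structure GoodU (U : Ω → Ω → ℝ) (ε : ℝ) : Prop where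
  meas : Measurable (Function.uncurry U)
  symm : ∀ a b, U a b = U b a
  bound : ∀ a b, |U a b| ≤ ε
  nonneg : 0 ≤ ε

theorem abs_integral_le {f : Ω → ℝ} {C : ℝ} (h : ∀ z, |f z| ≤ C) : |∫ z, f z ∂μ| ≤ C := by
  have := norm_integral_le_of_norm_le_const (μ := μ) (Filter.Eventually.of_forall
    fun z => (Real.norm_eq_abs _).trans_le (h z))
  simpa [Real.norm_eq_abs] using this

theorem integrable_bdd {α : Type} [MeasurableSpace α] {ν : Measure α} [IsFiniteMeasure ν]
    {f : α → ℝ} (hf : Measurable f) {C : ℝ} (h : ∀ z, |f z| ≤ C) : Integrable f ν :=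
  Integrable.of_bound hf.aestronglyMeasurable C
    (Filter.Eventually.of_forall fun z => (Real.norm_eq_abs _).trans_le (h z))

theorem wpath_good {ε : ℝ} (hU : GoodU U ε) : ∀ {ws : List (Ω → ℝ)}, GoodW ws →
    Measurable (Function.uncurry (wpath μ U ws)) ∧
      ∀ a b, |wpath μ U ws a b| ≤ ε ^ (ws.length + 1) := by
  intro ws
  induction ws with
  | nil => intro _; exact ⟨hU.meas, fun a b => by simpa [wpath] using hU.bound a b⟩
  | cons w ws ih =>
    intro hws
    obtain ⟨hw, hwb⟩ := hws w (List.mem_cons_self ..)
    obtain ⟨ihm, ihb⟩ := ih fun v hv => hws v (List.mem_cons_of_mem _ hv)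
    refine ⟨?_, fun a b => abs_integral_le fun z => ?_⟩
    · have hm : Measurable fun q : (Ω × Ω) × Ω =>
          U q.1.1 q.2 * (w q.2 * wpath μ U ws q.2 q.1.2) :=
        (hU.meas.comp ((measurable_fst.comp measurable_fst).prodMk measurable_snd)).mul
          ((hw.comp measurable_snd).mul
            (ihm.comp (measurable_snd.prodMk (measurable_snd.comp measurable_fst))))
      exact (hm.stronglyMeasurable.integral_prod_right' (ν := μ)).measurable
    · rw [abs_mul, abs_mul, List.length_cons, pow_succ' ε (ws.length + 1)]
      exact mul_le_mul (hU.bound _ _)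
        ((mul_le_mul (hwb z) (ihb z b) (abs_nonneg _) zero_le_one).trans_eq (one_mul _))
        (by positivity) hU.nonneg

theorem wtrace_bound {ε : ℝ} (hU : GoodU U ε) {ws : List (Ω → ℝ)} (hws : GoodW ws) :
    |wtrace μ U ws| ≤ ε ^ ws.length := by
  cases ws with
  | nil => simp [wtrace]
  | cons w ws =>
    refine abs_integral_le fun a => ?_
    rw [abs_mul]
    exact (mul_le_mul ((hws w (List.mem_cons_self ..)).2 a)
      ((wpath_good hU fun v hv => hws v (List.mem_cons_of_mem _ hv)).2 a a) (abs_nonneg _)
      zero_le_one).trans_eq (one_mul _)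

theorem wpath_append {ε : ℝ} (hU : GoodU U ε) {l r : List (Ω → ℝ)} {w : Ω → ℝ}
    (hl : GoodW l) (hr : GoodW r) (hw : Measurable w) (hwb : ∀ z, |w z| ≤ 1) (a b : Ω) :
    wpath μ U (l ++ w :: r) a b = ∫ c, wpath μ U l a c * (w c * wpath μ U r c b) ∂μ := by
  induction l generalizing a with
  | nil => rfl
  | cons v l ih =>
    obtain ⟨hv, hvb⟩ := hl v (List.mem_cons_self ..)
    have hl' : GoodW l := fun u hu => hl u (List.mem_cons_of_mem _ hu)
    obtain ⟨lm, lb⟩ := wpath_good (μ := μ) hU hl'
    obtain ⟨rm, rb⟩ := wpath_good (μ := μ) hU hr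
    simp only [List.cons_append, wpath]
    simp only [ih hl', ← integral_const_mul, ← integral_mul_const]
    rw [integral_integral_swap]
    · refine integral_congr_ae (Filter.Eventually.of_forall fun c => ?_)
      refine integral_congr_ae (Filter.Eventually.of_forall fun z => ?_)
      ring
    · refine integrable_bdd (C := ε * (1 * (ε ^ (l.length + 1) * (1 * ε ^ (r.length + 1))))) ?_ ?_
      · exact (hU.meas.comp (measurable_const.prodMk measurable_fst)).mul
          ((hv.comp measurable_fst).mul ((lm.comp (measurable_fst.prodMk measurable_snd)).mul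
            ((hw.comp measurable_snd).mul (rm.comp (measurable_snd.prodMk measurable_const)))))
      · intro q
        simp only [Function.uncurry, abs_mul]
        have := hU.nonneg
        refine mul_le_mul (hU.bound _ _) (mul_le_mul (hvb _) (mul_le_mul (lb _ _)
          (mul_le_mul (hwb _) (rb _ _) (abs_nonneg _) zero_le_one) (by positivity) (by positivity))
          (by positivity) zero_le_one) (by positivity) hU.nonneg

theorem goodW_reverse {l : List (Ω → ℝ)} (hl : GoodW l) : GoodW l.reverse :=
  fun w hw => hl w (List.mem_reverse.1 hw)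

theorem wpath_reverse {ε : ℝ} (hU : GoodU U ε) {l : List (Ω → ℝ)} (hl : GoodW l) (a b : Ω) :
    wpath μ U l.reverse b a = wpath μ U l a b := by
  induction l generalizing a with
  | nil => exact hU.symm b a
  | cons v l ih =>
    obtain ⟨hv, hvb⟩ := hl v (List.mem_cons_self ..)
    have hl' : GoodW l := fun u hu => hl u (List.mem_cons_of_mem _ hu)
    rw [List.reverse_cons, wpath_append hU (goodW_reverse hl') (r := [])
      (fun u hu => absurd hu (List.not_mem_nil)) hv hvb]
    refine integral_congr_ae (Filter.Eventually.of_forall fun c => ?_)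
    simp only [wpath, ih hl', hU.symm c a]
    ring

/-- A closed walk split at two vertices. -/
theorem wtrace_split {ε : ℝ} (hU : GoodU U ε) {l r : List (Ω → ℝ)} {w0 w1 : Ω → ℝ}
    (hl : GoodW l) (hr : GoodW r) (hw1 : Measurable w1)
    (hw1b : ∀ z, |w1 z| ≤ 1) :
    wtrace μ U (w0 :: l ++ w1 :: r) =
      ∫ a, ∫ c, w0 a * w1 c * (wpath μ U l a c * wpath μ U r c a) ∂μ ∂μ := by
  simp only [List.cons_append, wtrace, wpath_append hU hl hr hw1 hw1b, ← integral_const_mul]
  refine integral_congr_ae (Filter.Eventually.of_forall fun a => ?_)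
  refine integral_congr_ae (Filter.Eventually.of_forall fun c => ?_)
  ring

theorem GoodW.cons {ws : List (Ω → ℝ)} {w : Ω → ℝ} (h : GoodW ws) (hw : Measurable w)
    (hwb : ∀ z, |w z| ≤ 1) : GoodW (w :: ws) := fun v hv => by
  rcases List.mem_cons.1 hv with rfl | hv
  · exact ⟨hw, hwb⟩
  · exact h v hv

theorem GoodW.append {l r : List (Ω → ℝ)} (hl : GoodW l) (hr : GoodW r) : GoodW (l ++ r) :=
  fun v hv => (List.mem_append.1 hv).elim (hl v) (hr v)

/-- Closed walks can be turned. -/
theorem wtrace_swap {ε : ℝ} (hU : GoodU U ε) {l r : List (Ω → ℝ)} (h : GoodW (l ++ r)) :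
    wtrace μ U (r ++ l) = wtrace μ U (l ++ r) := by
  cases l with
  | nil => simp
  | cons w0 l =>
    cases r with
    | nil => simp
    | cons w1 r =>
      obtain ⟨h0, h0b⟩ := h w0 (List.mem_append_left _ (List.mem_cons_self ..))
      obtain ⟨h1, h1b⟩ := h w1 (List.mem_append_right _ (List.mem_cons_self ..))
      have hl : GoodW l := fun v hv => h v (List.mem_append_left _ (List.mem_cons_of_mem _ hv))
      have hr : GoodW r := fun v hv => h v (List.mem_append_right _ (List.mem_cons_of_mem _ hv))
      obtain ⟨lm, lb⟩ := wpath_good (μ := μ) hU hl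
      obtain ⟨rm, rb⟩ := wpath_good (μ := μ) hU hr
      rw [wtrace_split hU hr hl h0 h0b, wtrace_split hU hl hr h1 h1b, integral_integral_swap]
      · refine integral_congr_ae (Filter.Eventually.of_forall fun a => ?_)
        refine integral_congr_ae (Filter.Eventually.of_forall fun c => ?_)
        ring
      · refine integrable_bdd (C := 1 * 1 * (ε ^ (r.length + 1) * ε ^ (l.length + 1))) ?_ ?_
        · exact ((h1.comp measurable_fst).mul (h0.comp measurable_snd)).mul
            ((rm.comp (measurable_fst.prodMk measurable_snd)).mul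
              (lm.comp (measurable_snd.prodMk measurable_fst)))
        · intro q
          simp only [Function.uncurry, abs_mul]
          have := hU.nonneg
          refine mul_le_mul (mul_le_mul (h1b _) (h0b _) (abs_nonneg _) zero_le_one)
            (mul_le_mul (rb _ _) (lb _ _) (abs_nonneg _) (by positivity)) (by positivity)
            (by norm_num)

/-- The unit weight. -/
def one1 : Ω → ℝ := fun _ => 1

theorem one1_good : Measurable (one1 : Ω → ℝ) ∧ ∀ z, |(one1 : Ω → ℝ) z| ≤ 1 :=
  ⟨measurable_const, fun _ => by simp [one1]⟩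

theorem wtrace_reflect {ε : ℝ} (hU : GoodU U ε) {l : List (Ω → ℝ)} (hl : GoodW l) :
    wtrace μ U (one1 :: l ++ one1 :: l.reverse) =
      ∫ a, ∫ c, wpath μ U l a c ^ 2 ∂μ ∂μ := by
  rw [wtrace_split hU hl (goodW_reverse hl) one1_good.1 one1_good.2]
  simp only [wpath_reverse hU hl, one1, one_mul, pow_two]

/-- The Cauchy and Schwarz step. -/
theorem wtrace_sq_le {ε : ℝ} (hU : GoodU U ε) {l r : List (Ω → ℝ)} {w0 w1 : Ω → ℝ}
    (hl : GoodW l) (hr : GoodW r) (hw0 : Measurable w0) (hw0b : ∀ z, |w0 z| ≤ 1)
    (hw1 : Measurable w1) (hw1b : ∀ z, |w1 z| ≤ 1) :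
    wtrace μ U (w0 :: l ++ w1 :: r) ^ 2 ≤
      wtrace μ U (one1 :: l ++ one1 :: l.reverse) * wtrace μ U (one1 :: r ++ one1 :: r.reverse) := by
  obtain ⟨lm, lb⟩ := wpath_good (μ := μ) hU hl
  obtain ⟨rm, rb⟩ := wpath_good (μ := μ) hU hr
  rw [wtrace_reflect hU hl, wtrace_reflect hU hr, wtrace_split hU hl hr hw1 hw1b]
  have hε := hU.nonneg
  set f : Ω × Ω → ℝ := fun q => w0 q.1 * w1 q.2 * wpath μ U l q.1 q.2 with hf
  set g : Ω × Ω → ℝ := fun q => wpath μ U r q.2 q.1 with hg
  have hfm : Measurable f :=
    ((hw0.comp measurable_fst).mul (hw1.comp measurable_snd)).mul lm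
  have hgm : Measurable g := rm.comp (measurable_snd.prodMk measurable_fst)
  have hfb : ∀ q, |f q| ≤ ε ^ (l.length + 1) := fun q => by
    simp only [hf, abs_mul]
    exact (mul_le_mul (mul_le_mul (hw0b _) (hw1b _) (abs_nonneg _) zero_le_one) (lb _ _)
      (abs_nonneg _) (by norm_num)).trans_eq (by ring)
  have hgb : ∀ q, |g q| ≤ ε ^ (r.length + 1) := fun q => rb _ _
  set hh : Ω × Ω → ℝ := fun q => wpath μ U l q.1 q.2 with hhdef
  have hhm : Measurable hh := lm
  have hhb : ∀ q, |hh q| ≤ ε ^ (l.length + 1) := fun q => lb _ _
  have isq : ∀ {u : Ω × Ω → ℝ}, Measurable u → ∀ {C : ℝ}, (∀ q, |u q| ≤ C) →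
      Integrable (fun q => u q ^ 2) (μ.prod μ) := fun {u} hu {C} hC =>
    integrable_bdd (hu.pow_const 2) (C := C ^ 2) fun q => by
      rw [abs_pow]; exact pow_le_pow_left₀ (abs_nonneg _) (hC q) 2
  have e1 : ∫ a, ∫ c, w0 a * w1 c * (wpath μ U l a c * wpath μ U r c a) ∂μ ∂μ =
      ∫ q, f q * g q ∂μ.prod μ := by
    rw [integral_prod (fun q => f q * g q)]
    · simp only [hf, hg, mul_assoc]
    · refine integrable_bdd (hfm.mul hgm) (C := ε ^ (l.length + 1) * ε ^ (r.length + 1)) fun q => ?_
      rw [abs_mul]
      exact mul_le_mul (hfb q) (hgb q) (abs_nonneg _) (by positivity)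
  have e2 : ∫ a, ∫ c, wpath μ U l a c ^ 2 ∂μ ∂μ = ∫ q, hh q ^ 2 ∂μ.prod μ :=
    (integral_prod (fun q => hh q ^ 2) (isq hhm hhb)).symm
  have e3 : ∫ a, ∫ c, wpath μ U r a c ^ 2 ∂μ ∂μ = ∫ q, g q ^ 2 ∂μ.prod μ := by
    rw [integral_prod_symm (fun q => g q ^ 2) (isq hgm hgb)]
  rw [e1, e2, e3]
  have hfh : ∫ q, f q ^ 2 ∂μ.prod μ ≤ ∫ q, hh q ^ 2 ∂μ.prod μ := by
    refine integral_mono (isq hfm hfb) (isq hhm hhb) fun q => ?_
    simp only [hf, hhdef, mul_pow]
    refine mul_le_of_le_one_left (sq_nonneg _) (mul_le_one₀ ?_ (sq_nonneg _) ?_)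
    · rw [← sq_abs]; exact pow_le_one₀ (abs_nonneg _) (hw0b _)
    · rw [← sq_abs]; exact pow_le_one₀ (abs_nonneg _) (hw1b _)
  have hg0 : 0 ≤ ∫ q, g q ^ 2 ∂μ.prod μ := integral_nonneg fun q => sq_nonneg _
  refine le_trans ?_ (mul_le_mul_of_nonneg_right hfh hg0)
  -- a nonnegative quadratic
  set A := ∫ q, f q ^ 2 ∂μ.prod μ
  set B := ∫ q, f q * g q ∂μ.prod μ
  set G := ∫ q, g q ^ 2 ∂μ.prod μ
  have hfg : Integrable (fun q => f q * g q) (μ.prod μ) :=
    integrable_bdd (hfm.mul hgm) (C := ε ^ (l.length + 1) * ε ^ (r.length + 1)) fun q => by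
      rw [abs_mul]; exact mul_le_mul (hfb q) (hgb q) (abs_nonneg _) (by positivity)
  have key : ∀ t : ℝ, 0 ≤ A * (t * t) + -2 * B * t + G := by
    intro t
    have h0 : 0 ≤ ∫ q, (t * f q - g q) ^ 2 ∂μ.prod μ := integral_nonneg fun q => sq_nonneg _
    have h1 : ∫ q, (t * f q - g q) ^ 2 ∂μ.prod μ =
        (t * t) * A + (-2 * t) * B + G := by
      rw [show (fun q => (t * f q - g q) ^ 2) =
          fun q => (t * t) * f q ^ 2 + (-2 * t) * (f q * g q) + g q ^ 2 from
        funext fun q => by ring]
      have i1 : Integrable (fun q => (t * t) * f q ^ 2 + (-2 * t) * (f q * g q)) (μ.prod μ) :=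
        ((isq hfm hfb).const_mul _).add (hfg.const_mul _)
      rw [integral_add i1 (isq hgm hgb),
        integral_add ((isq hfm hfb).const_mul _) (hfg.const_mul _), integral_const_mul,
        integral_const_mul]
    linarith
  have := discrim_le_zero key
  rw [discrim] at this
  nlinarith

/-- Bounded weights lose against unit weights. -/
theorem abs_wtrace_le {ε : ℝ} (hU : GoodU U ε) {k : ℕ} (hk : 1 ≤ k) {ws : List (Ω → ℝ)}
    (hws : GoodW ws) (hlen : ws.length = 2 * k) :
    |wtrace μ U ws| ≤ wtrace μ U (List.replicate (2 * k) one1) := by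
  set T := wtrace μ U (List.replicate (2 * k) one1) with hT
  set Sset : Set ℝ := {x | ∃ v, GoodW v ∧ v.length = 2 * k ∧ x = |wtrace μ U v|} with hSset
  have hne : Sset.Nonempty := ⟨_, ws, hws, hlen, rfl⟩
  have hbdd : BddAbove Sset := ⟨ε ^ (2 * k), by
    rintro x ⟨v, hv, hl, rfl⟩
    rw [← hl]
    exact wtrace_bound hU hv⟩
  set M := sSup Sset with hM
  have hMle : ∀ v, GoodW v → v.length = 2 * k → |wtrace μ U v| ≤ M := fun v hv hl =>
    le_csSup hbdd ⟨v, hv, hl, rfl⟩
  have hM0 : 0 ≤ M := (abs_nonneg _).trans (hMle ws hws hlen)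
  refine (hMle ws hws hlen).trans ?_
  -- a bound for long runs of unit weights bounds everything
  suffices key : ∀ L C, 0 ≤ C →
      (∀ v, GoodW v → v.length = 2 * k → (∃ rest, v = List.replicate (min L (2 * k)) one1 ++ rest) →
        |wtrace μ U v| ≤ C) → M ≤ C by
    refine key (2 * k) T ?_ fun v hv hl ⟨rest, hr⟩ => ?_
    · rw [hT, show List.replicate (2 * k) (one1 : Ω → ℝ) =
          one1 :: List.replicate (k - 1) one1 ++ one1 :: (List.replicate (k - 1) one1).reverse from by
            rw [List.reverse_replicate, ← List.replicate_succ, ← List.replicate_add]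
            congr 1
            omega,
        wtrace_reflect hU fun v hv => by rw [List.eq_of_mem_replicate hv]; exact one1_good]
      exact integral_nonneg fun a => integral_nonneg fun c => sq_nonneg _
    · rw [min_self] at hr
      have : rest = [] := by
        rw [hr, List.length_append, List.length_replicate] at hl
        exact List.length_eq_zero_iff.1 (by omega)
      rw [hr, this, List.append_nil, ← hT]
      refine le_of_eq (abs_of_nonneg ?_)
      rw [hT, show List.replicate (2 * k) (one1 : Ω → ℝ) =
          one1 :: List.replicate (k - 1) one1 ++ one1 :: (List.replicate (k - 1) one1).reverse from by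
            rw [List.reverse_replicate, ← List.replicate_succ, ← List.replicate_add]
            congr 1
            omega,
        wtrace_reflect hU fun v hv => by rw [List.eq_of_mem_replicate hv]; exact one1_good]
      exact integral_nonneg fun a => integral_nonneg fun c => sq_nonneg _
  intro L
  induction L with
  | zero =>
    intro C hC h
    exact csSup_le hne fun x ⟨v, hv, hl, hx⟩ => hx ▸ h v hv hl ⟨v, by simp⟩
  | succ L ih =>
    intro C hC h
    -- runs of length `L` are bounded by the geometric mean of `C` and `M`
    have hstep : ∀ v, GoodW v → v.length = 2 * k →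
        (∃ rest, v = List.replicate (min L (2 * k)) one1 ++ rest) →
          |wtrace μ U v| ≤ Real.sqrt (C * M) := by
      intro v hv hl ⟨rest, hrest⟩
      rcases Nat.lt_or_ge L k with hLk | hLk
      swap
      · -- half of the weights are units
        have hrl : v.length = 2 * k := hl
        set L' := min L (2 * k) with hL'
        have hk' : k ≤ L' := by omega
        -- turn so that one half consists of units
        have hv' : v = one1 :: List.replicate (k - 1) one1 ++
            (List.replicate (L' - k) one1 ++ rest) := by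
          rw [hrest, ← List.append_assoc, ← List.replicate_succ, ← List.replicate_add]
          congr 2
          omega
        have hgood : GoodW (List.replicate (L' - k) one1 ++ rest) := fun u hu => hv u (by
          rw [hv']; exact List.mem_append_right _ hu)
        rcases hm : List.replicate (L' - k) one1 ++ rest with - | ⟨w1, r⟩
        · rw [hv', hm, List.append_nil, List.length_cons, List.length_replicate] at hrl
          omega
        rw [hm] at hv' hgood
        obtain ⟨g1, g2⟩ := hgood w1 (List.mem_cons_self ..)
        have hr : GoodW r := fun u hu => hgood u (List.mem_cons_of_mem _ hu)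
        have hlr : r.length = k - 1 := by
          rw [hv', List.length_append, List.length_cons, List.length_cons,
            List.length_replicate] at hrl
          omega
        have hones : GoodW (List.replicate (k - 1) (one1 : Ω → ℝ)) := fun u hu => by
          rw [List.eq_of_mem_replicate hu]; exact one1_good
        have hcs := wtrace_sq_le (μ := μ) hU hones hr one1_good.1 one1_good.2 g1 g2
        rw [← hv'] at hcs
        have b1 : wtrace μ U (one1 :: List.replicate (k - 1) one1 ++
            one1 :: (List.replicate (k - 1) one1).reverse) ≤ C := by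
          refine (le_abs_self _).trans (h _ ((hones.cons one1_good.1 one1_good.2).append
            ((goodW_reverse hones).cons one1_good.1 one1_good.2)) ?_ ?_)
          · simp only [List.length_append, List.length_cons, List.length_reverse,
              List.length_replicate]
            omega
          · refine ⟨List.replicate (2 * k - min (L + 1) (2 * k)) one1, ?_⟩
            rw [List.reverse_replicate, ← List.replicate_succ, ← List.replicate_add,
              ← List.replicate_add]
            congr 1
            omega
        have b2 : wtrace μ U (one1 :: r ++ one1 :: r.reverse) ≤ M :=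
          (le_abs_self _).trans (hMle _ ((hr.cons one1_good.1 one1_good.2).append
            ((goodW_reverse hr).cons one1_good.1 one1_good.2)) (by
              simp only [List.length_append, List.length_cons, List.length_reverse, hlr]; omega))
        have b3 : 0 ≤ wtrace μ U (one1 :: r ++ one1 :: r.reverse) := by
          rw [wtrace_reflect hU hr]
          exact integral_nonneg fun a => integral_nonneg fun c => sq_nonneg _
        exact Real.abs_le_sqrt (hcs.trans (mul_le_mul b1 b2 b3 hC))
      · -- turn the run to the end of a half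
        rw [show min L (2 * k) = L by omega] at hrest
        have hrl : rest.length = 2 * k - L := by
          rw [hrest, List.length_append, List.length_replicate] at hl; omega
        -- `rest = w1 :: r ++ w0 :: pre`
        rcases hm : rest with - | ⟨w1, tl⟩
        · rw [hm] at hrl; simp at hrl; omega
        rcases hm2 : tl.drop (k - 1) with - | ⟨w0, pre⟩
        · have := congrArg List.length hm2
          rw [List.length_drop, List.length_nil] at this
          rw [hm, List.length_cons] at hrl
          omega
        set r := tl.take (k - 1) with hr_def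
        set ll := pre ++ List.replicate L (one1 : Ω → ℝ) with hll
        have htl : tl = r ++ w0 :: pre := by rw [hr_def, ← hm2, List.take_append_drop]
        have hv' : v = (List.replicate L one1 ++ w1 :: r) ++ w0 :: pre := by
          rw [hrest, hm, htl]; simp
        have hgr : GoodW (List.replicate L one1 ++ w1 :: r) := fun u hu => hv u (by
          rw [hv']; exact List.mem_append_left _ hu)
        have hgp : GoodW (w0 :: pre) := fun u hu => hv u (by
          rw [hv']; exact List.mem_append_right _ hu)
        obtain ⟨g1, g2⟩ := hgr w1 (List.mem_append_right _ (List.mem_cons_self ..))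
        obtain ⟨f1, f2⟩ := hgp w0 (List.mem_cons_self ..)
        have hr : GoodW r := fun u hu => hgr u
          (List.mem_append_right _ (List.mem_cons_of_mem _ hu))
        have hones : GoodW (List.replicate L (one1 : Ω → ℝ)) := fun u hu => by
          rw [List.eq_of_mem_replicate hu]; exact one1_good
        have hllg : GoodW ll := fun u hu => (List.mem_append.1 hu).elim
          (fun h => hgp u (List.mem_cons_of_mem _ h)) (hones u)
        have hlr : r.length = k - 1 := by
          rw [hm, List.length_cons] at hrl
          rw [hr_def, List.length_take]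
          omega
        have hlll : ll.length = k - 1 := by
          have := congrArg List.length htl
          rw [hm, List.length_cons] at hrl
          simp only [List.length_append, List.length_cons, hlr] at this
          rw [hll, List.length_append, List.length_replicate]
          omega
        have hturn : wtrace μ U v = wtrace μ U (w0 :: ll ++ w1 :: r) := by
          rw [hv', ← wtrace_swap hU (l := List.replicate L one1 ++ w1 :: r) (r := w0 :: pre)
            (by rw [← hv']; exact hv)]
          simp [hll]
        have hcs := wtrace_sq_le (μ := μ) hU hllg hr f1 f2 g1 g2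
        rw [← hturn] at hcs
        have b1 : wtrace μ U (one1 :: ll ++ one1 :: ll.reverse) ≤ C := by
          have hgood : GoodW ((one1 :: pre) ++ (List.replicate (2 * L + 1) one1 ++ pre.reverse)) :=
            GoodW.append (GoodW.cons (fun u hu => hgp u (List.mem_cons_of_mem _ hu)) one1_good.1
              one1_good.2) (GoodW.append
              (fun u hu => by rw [List.eq_of_mem_replicate hu]; exact one1_good)
              (goodW_reverse fun u hu => hgp u (List.mem_cons_of_mem _ hu)))
          have e1 : one1 :: ll ++ one1 :: ll.reverse =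
              (one1 :: pre) ++ (List.replicate (2 * L + 1) one1 ++ pre.reverse) := by
            rw [hll, show 2 * L + 1 = L + (1 + L) by omega, List.replicate_add, List.replicate_add]
            simp
          rw [e1, ← wtrace_swap hU hgood]
          refine (le_abs_self _).trans (h _ (fun u hu => ?_) ?_
            ⟨List.replicate (2 * L + 1 - min (L + 1) (2 * k)) one1 ++ pre.reverse ++ one1 :: pre, ?_⟩)
          · rcases List.mem_append.1 hu with hu | hu
            · exact hgood u (List.mem_append_right _ hu)
            · exact hgood u (List.mem_append_left _ hu)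
          · simp only [hll, List.length_append, List.length_replicate] at hlll
            simp only [List.length_append, List.length_cons, List.length_reverse,
              List.length_replicate]
            omega
          · have e : List.replicate (2 * L + 1) (one1 : Ω → ℝ) =
                List.replicate (min (L + 1) (2 * k)) one1 ++
                  List.replicate (2 * L + 1 - min (L + 1) (2 * k)) one1 := by
              rw [← List.replicate_add]
              congr 1
              omega
            rw [e]
            simp only [List.append_assoc]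
        have b2 : wtrace μ U (one1 :: r ++ one1 :: r.reverse) ≤ M :=
          (le_abs_self _).trans (hMle _ ((hr.cons one1_good.1 one1_good.2).append
            ((goodW_reverse hr).cons one1_good.1 one1_good.2)) (by
              simp only [List.length_append, List.length_cons, List.length_reverse, hlr]; omega))
        have b3 : 0 ≤ wtrace μ U (one1 :: r ++ one1 :: r.reverse) := by
          rw [wtrace_reflect hU hr]
          exact integral_nonneg fun a => integral_nonneg fun c => sq_nonneg _
        exact Real.abs_le_sqrt (hcs.trans (mul_le_mul b1 b2 b3 hC))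
    have hs := ih (Real.sqrt (C * M)) (Real.sqrt_nonneg _) hstep
    have h2 : M * M ≤ C * M := by
      have := mul_le_mul hs hs hM0 (Real.sqrt_nonneg _)
      rwa [Real.mul_self_sqrt (mul_nonneg hC hM0)] at this
    rcases eq_or_lt_of_le hM0 with h0 | h0
    · rw [← h0]; exact hC
    · exact le_of_mul_le_mul_right h2 h0

theorem wtrace_ones_nonneg {ε : ℝ} (hU : GoodU U ε) {k : ℕ} (hk : 1 ≤ k) :
    0 ≤ wtrace μ U (List.replicate (2 * k) one1) :=
  (abs_nonneg _).trans (abs_wtrace_le hU hk
    (fun u hu => by rw [List.eq_of_mem_replicate hu]; exact one1_good) List.length_replicate)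

theorem measurable_cons_apply {m : ℕ} (i : Fin (m + 1)) :
    Measurable fun q : Ω × (Fin m → Ω) => (Fin.cons q.1 q.2 : Fin (m + 1) → Ω) i := by
  cases i using Fin.cases with
  | zero => simp only [Fin.cons_zero]; exact measurable_fst
  | succ j => simp only [Fin.cons_succ]; exact (measurable_pi_apply j).comp measurable_snd

theorem measurable_snoc_apply {m : ℕ} {g : Ω × (Fin m → Ω) → Ω} (hg : Measurable g)
    (i : Fin (m + 1)) :
    Measurable fun q : Ω × (Fin m → Ω) => (Fin.snoc q.2 (g q) : Fin (m + 1) → Ω) i := by
  cases i using Fin.lastCases with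
  | last => simp only [Fin.snoc_last]; exact hg
  | cast j => simp only [Fin.snoc_castSucc]; exact (measurable_pi_apply j).comp measurable_snd

/-- The walk as an integral over its inner vertices. -/
theorem integral_walk {ε : ℝ} (hU : GoodU U ε) :
    ∀ (m : ℕ) (w : Fin m → Ω → ℝ), (∀ i, Measurable (w i) ∧ ∀ z, |w i z| ≤ 1) → ∀ a b : Ω,
      ∫ z : Fin m → Ω, (∏ i : Fin (m + 1),
          U ((Fin.cons a z : Fin (m + 1) → Ω) i) ((Fin.snoc z b : Fin (m + 1) → Ω) i)) *
          ∏ i, w i (z i) ∂Measure.pi (fun _ => μ) =
        wpath μ U (List.ofFn w) a b := by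
  intro m
  induction m with
  | zero =>
    intro w _ a b
    have e : ∀ z : Fin 0 → Ω, (∏ i : Fin 1,
        U ((Fin.cons a z : Fin 1 → Ω) i) ((Fin.snoc z b : Fin 1 → Ω) i)) *
        ∏ i, w i (z i) = U a b := fun z => by
      simp [Fin.snoc]
    simp only [e, List.ofFn_zero, wpath]
    simp
  | succ m ih =>
    intro w hw a b
    have hmp := (measurePreserving_piFinSuccAbove (fun _ : Fin (m + 1) => μ) 0).symm
    rw [← hmp.integral_comp (MeasurableEquiv.measurableEmbedding _)]
    set wt : Fin m → Ω → ℝ := fun i => w i.succ
    set F : Ω × (Fin m → Ω) → ℝ := fun q => U a q.1 * (w 0 q.1 *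
      ((∏ i : Fin (m + 1), U ((Fin.cons q.1 q.2 : Fin (m + 1) → Ω) i)
          ((Fin.snoc q.2 b : Fin (m + 1) → Ω) i)) * ∏ i, wt i (q.2 i))) with hF
    have hsimp : ∀ q : Ω × (Fin m → Ω),
        (∏ i : Fin (m + 1 + 1),
          U ((Fin.cons a (Fin.cons q.1 q.2 : Fin (m + 1) → Ω) : Fin (m + 2) → Ω) i)
            ((Fin.snoc (Fin.cons q.1 q.2 : Fin (m + 1) → Ω) b : Fin (m + 2) → Ω) i)) *
            ∏ i, w i ((Fin.cons q.1 q.2 : Fin (m + 1) → Ω) i) = F q := fun q => by
      rw [Fin.prod_univ_succ, Fin.prod_univ_succ (f := fun i => w i _), ← Fin.cons_snoc_eq_snoc_cons]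
      simp only [Fin.cons_zero, Fin.cons_succ, hF, wt]
      ring
    have e : ∀ q : Ω × (Fin m → Ω), (fun z : Fin (m + 1) → Ω => (∏ i : Fin (m + 1 + 1),
        U ((Fin.cons a z : Fin (m + 2) → Ω) i) ((Fin.snoc z b : Fin (m + 2) → Ω) i)) *
          ∏ i, w i (z i))
        ((MeasurableEquiv.piFinSuccAbove (fun _ : Fin (m + 1) => Ω) 0).symm q) = F q := fun q => by
      rw [← hsimp q]
      simp only [MeasurableEquiv.piFinSuccAbove_symm_apply, Fin.insertNth_zero, Fin.insertNthEquiv,
        Equiv.coe_fn_mk]
      rfl
    simp only at e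
    simp only [e]
    have hFm : Measurable F := by
      refine (hU.meas.comp (measurable_const.prodMk measurable_fst)).mul
        (((hw 0).1.comp measurable_fst).mul (Measurable.mul ?_ ?_))
      · refine Finset.measurable_prod _ fun i _ => hU.meas.comp (Measurable.prodMk
          (measurable_cons_apply i) (measurable_snoc_apply (g := fun _ => b) measurable_const i))
      · exact Finset.measurable_prod _ fun i _ =>
          (hw i.succ).1.comp ((measurable_pi_apply i).comp measurable_snd)
    have hFi : Integrable F (μ.prod (Measure.pi fun _ : Fin m => μ)) := by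
      refine integrable_bdd hFm (C := ε * (1 * (ε ^ (m + 1) * 1))) fun q => ?_
      have hε := hU.nonneg
      simp only [hF, abs_mul, Finset.abs_prod]
      refine mul_le_mul (hU.bound _ _) (mul_le_mul ((hw 0).2 _) (mul_le_mul ?_ ?_ ?_ ?_)
        (by positivity) zero_le_one) (by positivity) hε
      · exact (Finset.prod_le_prod (fun i _ => abs_nonneg _) fun i _ => hU.bound _ _).trans_eq
          (by simp)
      · exact Finset.prod_le_one (fun i _ => abs_nonneg _) fun i _ => (hw i.succ).2 _
      · positivity
      · positivity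
    rw [integral_prod _ hFi, List.ofFn_succ]
    simp only [hF, integral_const_mul, ih wt (fun i => hw i.succ), wt, wpath]

/-- A closed walk as an integral over all its vertices. -/
theorem integral_closed {ε : ℝ} (hU : GoodU U ε) {m : ℕ} (w : Fin (m + 1) → Ω → ℝ)
    (hw : ∀ i, Measurable (w i) ∧ ∀ z, |w i z| ≤ 1) :
    ∫ z : Fin (m + 1) → Ω, (∏ i, U (z i) (z (i + 1))) * ∏ i, w i (z i)
        ∂Measure.pi (fun _ => μ) = wtrace μ U (List.ofFn w) := by
  have hmp := (measurePreserving_piFinSuccAbove (fun _ : Fin (m + 1) => μ) 0).symm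
  rw [← hmp.integral_comp (MeasurableEquiv.measurableEmbedding _)]
  set G : Ω × (Fin m → Ω) → ℝ := fun q => w 0 q.1 *
    ((∏ i : Fin (m + 1), U ((Fin.cons q.1 q.2 : Fin (m + 1) → Ω) i)
        ((Fin.snoc q.2 q.1 : Fin (m + 1) → Ω) i)) * ∏ i : Fin m, w i.succ (q.2 i)) with hG
  have e : ∀ q : Ω × (Fin m → Ω),
      (∏ i, U ((MeasurableEquiv.piFinSuccAbove (fun _ : Fin (m + 1) => Ω) 0).symm q i)
          ((MeasurableEquiv.piFinSuccAbove (fun _ : Fin (m + 1) => Ω) 0).symm q (i + 1))) *
        ∏ i, w i ((MeasurableEquiv.piFinSuccAbove (fun _ : Fin (m + 1) => Ω) 0).symm q i) = G q := by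
    intro q
    simp only [MeasurableEquiv.piFinSuccAbove_symm_apply, Fin.insertNth_zero, Fin.insertNthEquiv,
      Equiv.coe_fn_mk]
    rw [Fin.prod_univ_succ (f := fun i => w i _)]
    simp only [Fin.cons_zero, Fin.cons_succ, hG]
    have e2 : ∀ i : Fin (m + 1), (Fin.cons q.1 q.2 : Fin (m + 1) → Ω) (i + 1) =
        (Fin.snoc q.2 q.1 : Fin (m + 1) → Ω) i := by
      intro i
      cases i using Fin.lastCases with
      | last => simp
      | cast j => rw [Fin.coeSucc_eq_succ]; simp
    show (∏ x : Fin (m + 1), U ((Fin.cons q.1 q.2 : Fin (m + 1) → Ω) x)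
        ((Fin.cons q.1 q.2 : Fin (m + 1) → Ω) (x + 1))) * (w 0 q.1 * ∏ x, w x.succ (q.2 x)) = _
    simp only [e2]
    ring
  simp only [e]
  have hε := hU.nonneg
  have hGi : Integrable G (μ.prod (Measure.pi fun _ : Fin m => μ)) := by
    refine integrable_bdd ?_ (C := 1 * (ε ^ (m + 1) * 1)) fun q => ?_
    · refine ((hw 0).1.comp measurable_fst).mul (Measurable.mul ?_ ?_)
      · refine Finset.measurable_prod _ fun i _ => hU.meas.comp (Measurable.prodMk
          (measurable_cons_apply i) (measurable_snoc_apply (g := Prod.fst) measurable_fst i))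
      · exact Finset.measurable_prod _ fun i _ =>
          (hw i.succ).1.comp ((measurable_pi_apply i).comp measurable_snd)
    · simp only [hG, abs_mul, Finset.abs_prod]
      refine mul_le_mul ((hw 0).2 _) (mul_le_mul ?_ ?_ ?_ ?_) (by positivity) zero_le_one
      · exact (Finset.prod_le_prod (fun i _ => abs_nonneg _) fun i _ => hU.bound _ _).trans_eq
          (by simp)
      · exact Finset.prod_le_one (fun i _ => abs_nonneg _) fun i _ => (hw i.succ).2 _
      · positivity
      · positivity
  rw [integral_prod _ hGi, List.ofFn_succ]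
  simp only [hG, integral_const_mul,
    integral_walk hU m (fun i => w i.succ) (fun i => hw i.succ), wtrace]

end Vale.Agent.P050.Local
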