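import Vale.Agent.P050.Local.Cycles
import Vale.Agent.P050.Local.Trace

/-!
Homomorphism integrals of edge sets.

Proof notes.  An edge set containing an induced cycle, times a bounded function of one vertex, is
a closed walk with bounded weights once the variables outside the cycle are fixed.
-/

namespace Vale.Agent.P050.Local

open MeasureTheory Finset

set_option linter.unusedSectionVars false

variable {V : Type} [Fintype V] [DecidableEq V] {Ω : Type} [MeasurableSpace Ω] {μ : Measure Ω}
  [IsProbabilityMeasure μ] {U : Ω → Ω → ℝ} {ε : ℝ}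

/-- The product over the edges. -/
def eprod (U : Ω → Ω → ℝ) (K : Finset (V × V)) (x : V → Ω) : ℝ := ∏ e ∈ K, U (x e.1) (x e.2)

/-- The homomorphism integral. -/
noncomputable def tint (μ : Measure Ω) (U : Ω → Ω → ℝ) (K : Finset (V × V)) : ℝ :=
  ∫ x : V → Ω, eprod U K x ∂Measure.pi (fun _ => μ)

/-- The excess degree of a kernel. -/
noncomputable def udeg (μ : Measure Ω) (U : Ω → Ω → ℝ) (z : Ω) : ℝ := ∫ y, U z y ∂μ

theorem eprod_measurable (hU : Measurable (Function.uncurry U)) (K : Finset (V × V)) :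
    Measurable (eprod U K) :=
  Finset.measurable_prod _ fun e _ =>
    (hU.comp ((measurable_pi_apply e.1).prodMk (measurable_pi_apply e.2)) :
      Measurable fun x : V → Ω => Function.uncurry U (x e.1, x e.2))

theorem eprod_bound (hU : GoodU U ε) (K : Finset (V × V)) (x : V → Ω) :
    |eprod U K x| ≤ ε ^ K.card := by
  rw [eprod, Finset.abs_prod, ← prod_const]
  exact prod_le_prod (fun e _ => abs_nonneg _) fun e _ => hU.bound _ _

theorem eprod_congr {K : Finset (V × V)} {x y : V → Ω} (h : ∀ v ∈ verts K, x v = y v) :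
    eprod U K x = eprod U K y :=
  prod_congr rfl fun e he => by rw [h _ (fst_mem_verts he), h _ (snd_mem_verts he)]

theorem udeg_measurable (hU : GoodU U ε) : Measurable (udeg μ U) :=
  (hU.meas.stronglyMeasurable.integral_prod_right' (ν := μ)).measurable

theorem udeg_bound (hU : GoodU U ε) (z : Ω) : |udeg μ U z| ≤ ε :=
  abs_integral_le fun y => hU.bound z y

/-- A bound for all sections bounds the integral over a product. -/
theorem abs_integral_prod_le {α β : Type} [MeasurableSpace α] [MeasurableSpace β] {P : Measure α}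
    {Q : Measure β} [IsProbabilityMeasure P] [IsProbabilityMeasure Q] {F : α × β → ℝ} {C : ℝ}
    (hC : 0 ≤ C) (h : ∀ b, |∫ a, F (a, b) ∂P| ≤ C) : |∫ q, F q ∂P.prod Q| ≤ C := by
  by_cases hi : Integrable F (P.prod Q)
  · rw [integral_prod_symm _ hi]
    exact abs_integral_le h
  · rw [integral_undef hi, abs_zero]
    exact hC

/-- Resampling one coordinate. -/
theorem measurePreserving_update (v : V) :
    MeasurePreserving (fun q : Ω × (V → Ω) => Function.update q.2 v q.1)
      (μ.prod (Measure.pi fun _ => μ)) (Measure.pi fun _ => μ) := by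
  have hm : Measurable fun q : Ω × (V → Ω) => Function.update q.2 v q.1 := by
    refine measurable_pi_lambda _ fun u => ?_
    by_cases h : u = v
    · subst h; simpa using measurable_fst
    · simp only [Function.update_of_ne h]
      exact (measurable_pi_apply u).comp measurable_snd
  refine ⟨hm, (Measure.pi_eq fun s hs => ?_).symm⟩
  rw [Measure.map_apply hm (MeasurableSet.univ_pi hs),
    show (fun q : Ω × (V → Ω) => Function.update q.2 v q.1) ⁻¹' Set.univ.pi s =
      s v ×ˢ Set.univ.pi (Function.update s v Set.univ) from ?_, Measure.prod_prod, Measure.pi_pi,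
    ← mul_prod_erase univ (fun i => μ (s i)) (mem_univ v),
    ← mul_prod_erase univ (fun i => μ (Function.update s v Set.univ i)) (mem_univ v),
    Function.update_self, measure_univ, one_mul]
  · congr 1
    exact prod_congr rfl fun i hi => by rw [Function.update_of_ne (ne_of_mem_erase hi)]
  · ext q
    simp only [Set.mem_preimage, Set.mem_pi, Set.mem_univ, true_implies, Set.mem_prod]
    constructor
    · intro h
      refine ⟨by simpa using h v, fun i => ?_⟩
      by_cases hi : i = v
      · subst hi; simp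
      · rw [Function.update_of_ne hi]
        simpa [Function.update_of_ne hi] using h i
    · rintro ⟨h1, h2⟩ i
      by_cases hi : i = v
      · subst hi; simpa using h1
      · simpa [Function.update_of_ne hi] using h2 i

/-- Integrating one coordinate first. -/
theorem integral_vertex (v : V) {F : (V → Ω) → ℝ} (hF : Measurable F) {C : ℝ}
    (hb : ∀ x, |F x| ≤ C) :
    ∫ x, F x ∂Measure.pi (fun _ => μ) =
      ∫ x, ∫ z, F (Function.update x v z) ∂μ ∂Measure.pi (fun _ => μ) := by
  have hmp := measurePreserving_update (μ := μ) v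
  conv_lhs => rw [← hmp.map_eq]
  rw [integral_map hmp.measurable.aemeasurable hF.aestronglyMeasurable]
  exact integral_prod_symm _ (integrable_bdd (hF.comp hmp.measurable) fun q => hb _)

/-- Integrating a function of one coordinate. -/
theorem integral_eval (v : V) {g : Ω → ℝ} (hg : Measurable g) {C : ℝ} (hb : ∀ z, |g z| ≤ C) :
    ∫ x : V → Ω, g (x v) ∂Measure.pi (fun _ => μ) = ∫ z, g z ∂μ := by
  rw [integral_vertex v (F := fun x : V → Ω => g (x v)) (hg.comp (measurable_pi_apply v))
    fun x => hb _]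
  simp

/-- Functions of disjoint coordinates are independent. -/
theorem integral_indep (S : Finset V) {f g : (V → Ω) → ℝ}
    (hfd : ∀ x y : V → Ω, (∀ v ∈ S, x v = y v) → f x = f y)
    (hgd : ∀ x y : V → Ω, (∀ v, v ∉ S → x v = y v) → g x = g y) :
    ∫ x, f x * g x ∂Measure.pi (fun _ => μ) =
      (∫ x, f x ∂Measure.pi (fun _ => μ)) * ∫ x, g x ∂Measure.pi (fun _ => μ) := by
  have : Nonempty Ω := nonempty_of_isProbabilityMeasure μ
  obtain ⟨ω⟩ := this
  have hmp := (measurePreserving_piEquivPiSubtypeProd (fun _ : V => μ) (· ∈ S)).symm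
  set Ψ := (MeasurableEquiv.piEquivPiSubtypeProd (fun _ : V => Ω) (· ∈ S)).symm with hΨ
  have hΨ1 : ∀ q, ∀ v (h : v ∈ S), Ψ q v = q.1 ⟨v, h⟩ := fun q v h => by
    simp [hΨ, MeasurableEquiv.piEquivPiSubtypeProd, Equiv.piEquivPiSubtypeProd, h]
  have hΨ2 : ∀ q, ∀ v (h : v ∉ S), Ψ q v = q.2 ⟨v, h⟩ := fun q v h => by
    simp [hΨ, MeasurableEquiv.piEquivPiSubtypeProd, Equiv.piEquivPiSubtypeProd, h]
  have hf : ∀ q, f (Ψ q) = f (Ψ (q.1, fun _ => ω)) := fun q =>
    hfd _ _ fun v hv => by rw [hΨ1 _ v hv, hΨ1 _ v hv]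
  have hg : ∀ q, g (Ψ q) = g (Ψ (fun _ => ω, q.2)) := fun q =>
    hgd _ _ fun v hv => by rw [hΨ2 _ v hv, hΨ2 _ v hv]
  rw [← hmp.integral_comp Ψ.measurableEmbedding (g := fun x => f x * g x),
    ← hmp.integral_comp Ψ.measurableEmbedding (g := f),
    ← hmp.integral_comp Ψ.measurableEmbedding (g := g)]
  simp only [hf, hg]
  rw [integral_prod_mul (fun a => f (Ψ (a, fun _ => ω))) (fun b => g (Ψ (fun _ => ω, b))),
    integral_fun_fst (fun a => f (Ψ (a, fun _ => ω))),
    integral_fun_snd (fun b => g (Ψ (fun _ => ω, b)))]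
  simp

/-- A leaf contributes the excess degree at its neighbour. -/
theorem leaf_integral (hU : GoodU U ε) {K : Finset (V × V)} {v a : V} (hva : v ≠ a)
    {e : V × V} (he : e ∈ K) (hev : e = (v, a) ∨ e = (a, v))
    (honly : ∀ f ∈ K, f.1 = v ∨ f.2 = v → f = e) {g : (V → Ω) → ℝ} (hg : Measurable g) {C : ℝ}
    (hgb : ∀ x, |g x| ≤ C) (hgd : ∀ x z, g (Function.update x v z) = g x) :
    ∫ x, g x * eprod U K x ∂Measure.pi (fun _ => μ) =
      ∫ x, g x * udeg μ U (x a) * eprod U (K.erase e) x ∂Measure.pi (fun _ => μ) := by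
  rw [integral_vertex v (F := fun x => g x * eprod U K x) (hg.mul (eprod_measurable hU.meas K))
    (C := C * ε ^ K.card) fun x => by
      rw [abs_mul]
      exact mul_le_mul (hgb x) (eprod_bound hU K x) (abs_nonneg _) ((abs_nonneg _).trans (hgb x))]
  refine integral_congr_ae (Filter.Eventually.of_forall fun x => ?_)
  simp only
  have h1 : ∀ z, g (Function.update x v z) * eprod U K (Function.update x v z) =
      g x * eprod U (K.erase e) x * U (x a) z := by
    intro z
    rw [hgd, eprod, ← mul_prod_erase K _ he]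
    have h2 : ∏ f ∈ K.erase e, U (Function.update x v z f.1) (Function.update x v z f.2) =
        eprod U (K.erase e) x := by
      refine prod_congr rfl fun f hf => ?_
      obtain ⟨hf1, hf2⟩ := mem_erase.1 hf
      rw [Function.update_of_ne fun h => hf1 (honly f hf2 (Or.inl h)),
        Function.update_of_ne fun h => hf1 (honly f hf2 (Or.inr h))]
    rw [h2]
    rcases hev with rfl | rfl <;> simp [Function.update_of_ne hva.symm, hU.symm] <;> ring
  simp only [h1, integral_const_mul, udeg]
  ring

theorem ones_trace_nonneg {col : V → Bool} {K : Finset (V × V)} (hK : Bip col K) {n : ℕ}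
    {c : ℕ → V} (h : IsCyc K n c) (hU : GoodU U ε) :
    0 ≤ wtrace μ U (List.replicate n one1) := by
  obtain ⟨k, hk⟩ := cyc_even hK h
  have h3 := h.1
  rw [show n = 2 * k by omega]
  exact wtrace_ones_nonneg hU (by omega)

theorem fin_succ_val {m : ℕ} (i : Fin (m + 1)) : ((i + 1 : Fin (m + 1)) : ℕ) = ((i : ℕ) + 1) % (m + 1) := by
  rw [Fin.val_add, Fin.val_one', Nat.add_mod_mod]

/-- The cycle of an edge set as a product over its vertices. -/
theorem eprod_cycEdges (hU : GoodU U ε) {col : V → Bool} {K : Finset (V × V)} (hK : Bip col K)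
    {m : ℕ} {c : ℕ → V} (h : IsCyc K (m + 1) c) (x : V → Ω) :
    eprod U (cycEdges K (m + 1) c) x = ∏ i : Fin (m + 1), U (x (c i)) (x (c ((i + 1 : Fin _) : ℕ))) := by
  rw [eprod, cycEdges_eq_image hK h, prod_image (cycEdge_injOn h), ← Fin.prod_univ_eq_prod_range]
  refine prod_congr rfl fun i _ => ?_
  rw [fin_succ_val]
  unfold cycEdge
  split_ifs with h1
  · rfl
  · exact hU.symm _ _

/-- The integral of a cycle. -/
theorem tint_cycle (hU : GoodU U ε) {col : V → Bool} {K : Finset (V × V)} (hK : Bip col K)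
    {n : ℕ} {c : ℕ → V} (h : IsCyc K n c) :
    tint μ U (cycEdges K n c) = wtrace μ U (List.replicate n one1) := by
  have h3 := h.1
  obtain ⟨m, rfl⟩ : ∃ m, n = m + 1 := ⟨n - 1, by omega⟩
  set S := (range (m + 1)).image c with hS
  let _ : Fintype {v // v ∈ S} := Subtype.fintype _
  let σ : Fin (m + 1) ≃ {v // v ∈ S} := Equiv.ofBijective
    (fun i => ⟨c i, mem_image_of_mem c (mem_range.2 i.2)⟩)
    ⟨fun i j hij => Fin.ext (h.2.1 _ i.2 _ j.2 (congrArg Subtype.val hij)), fun v => by
      obtain ⟨i, hi, hiv⟩ := mem_image.1 v.2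
      exact ⟨⟨i, mem_range.1 hi⟩, Subtype.ext hiv⟩⟩
  have hmp := (measurePreserving_piEquivPiSubtypeProd (fun _ : V => μ) (· ∈ S)).symm
  set Ψ := (MeasurableEquiv.piEquivPiSubtypeProd (fun _ : V => Ω) (· ∈ S)).symm with hΨ
  have hmp2 := measurePreserving_piCongrLeft (fun _ : {v // v ∈ S} => μ) σ
  set Φ := MeasurableEquiv.piCongrLeft (fun _ : {v // v ∈ S} => Ω) σ with hΦ
  have hval : ∀ q : ({v // v ∈ S} → Ω) × ({v // ¬v ∈ S} → Ω), ∀ i : Fin (m + 1),
      Ψ q (c i) = q.1 (σ i) := fun q i => by
    simp only [hΨ, MeasurableEquiv.piEquivPiSubtypeProd]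
    exact dif_pos (mem_image_of_mem c (mem_range.2 i.2))
  rw [tint, ← hmp.integral_comp Ψ.measurableEmbedding]
  simp only [eprod_cycEdges hU hK h, hval]
  rw [integral_fun_fst (fun a : {v // v ∈ S} → Ω => ∏ i : Fin (m + 1), U (a (σ i)) (a (σ (i + 1))))]
  rw [probReal_univ, one_smul]
  rw [← hmp2.integral_comp Φ.measurableEmbedding]
  have hΦv : ∀ (z : Fin (m + 1) → Ω) i, Φ z (σ i) = z i := fun z i => by
    simp [hΦ, MeasurableEquiv.piCongrLeft_apply_apply]
  simp only [hΦv]
  have h2 := integral_closed (μ := μ) hU (fun _ : Fin (m + 1) => (one1 : Ω → ℝ)) fun _ => one1_good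
  simp only [one1, prod_const_one, mul_one] at h2
  rw [h2, List.ofFn_const]

/-- An edge set with an induced cycle, times a bounded function of one vertex. -/
theorem cycle_bound (hU : GoodU U ε) (hε : 0 < ε) {col : V → Bool} {K : Finset (V × V)}
    (hK : Bip col K) {n : ℕ} {c : ℕ → V} (h : IsCyc K n c)
    (hmin : ∀ m d, IsCyc K m d → n ≤ m) {f : Ω → ℝ} (hf : Measurable f) {η : ℝ} (hη : 0 < η)
    (hfb : ∀ z, |f z| ≤ η) (x0 : V) :
    |∫ x, f (x x0) * eprod U K x ∂Measure.pi (fun _ => μ)| ≤
      η * ε ^ (K \ cycEdges K n c).card * wtrace μ U (List.replicate n one1) := by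
  have h3 := h.1
  have hne : Nonempty Ω := nonempty_of_isProbabilityMeasure μ
  obtain ⟨ω⟩ := hne
  obtain ⟨k, hk⟩ := cyc_even hK h
  obtain ⟨m, rfl⟩ : ∃ m, n = m + 1 := ⟨n - 1, by omega⟩
  set C := cycEdges K (m + 1) c with hC
  set D := K \ C with hD
  set S := (range (m + 1)).image c with hS
  have hverts : verts C = S := verts_cycEdges hK h
  have hsep : ∀ e ∈ D, ∀ v ∈ S, ∀ w ∈ S, (e.1 = v ∨ e.2 = v) → (e.1 = w ∨ e.2 = w) → v = w := by
    intro e he v hv w hw h1 h2
    by_contra hvw
    obtain ⟨heK, heC⟩ := mem_sdiff.1 he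
    refine heC (induced_edge hK h hmin heK ?_ ?_) <;> rw [← hC, hverts]
    · rcases h1 with rfl | h1
      · exact hv
      · rcases h2 with rfl | h2
        · exact hw
        · exact absurd (h1.symm.trans h2) hvw
    · rcases h1 with h1 | rfl
      · rcases h2 with h2 | rfl
        · exact absurd (h1.symm.trans h2) hvw
        · exact hw
      · exact hv
  let _ : Fintype {v // v ∈ S} := Subtype.fintype _
  let σ : Fin (m + 1) ≃ {v // v ∈ S} := Equiv.ofBijective
    (fun i => ⟨c i, mem_image_of_mem c (mem_range.2 i.2)⟩)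
    ⟨fun i j hij => Fin.ext (h.2.1 _ i.2 _ j.2 (congrArg Subtype.val hij)), fun v => by
      obtain ⟨i, hi, hiv⟩ := mem_image.1 v.2
      exact ⟨⟨i, mem_range.1 hi⟩, Subtype.ext hiv⟩⟩
  have hmp := (measurePreserving_piEquivPiSubtypeProd (fun _ : V => μ) (· ∈ S)).symm
  set Ψ := (MeasurableEquiv.piEquivPiSubtypeProd (fun _ : V => Ω) (· ∈ S)).symm with hΨ
  have hmp2 := measurePreserving_piCongrLeft (fun _ : {v // v ∈ S} => μ) σ
  set Φ := MeasurableEquiv.piCongrLeft (fun _ : {v // v ∈ S} => Ω) σ with hΦ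
  have hΦv : ∀ (z : Fin (m + 1) → Ω) i, Φ z (σ i) = z i := fun z i => by
    simp [hΦ, MeasurableEquiv.piCongrLeft_apply_apply]
  -- the scaled factors
  set fhat : V → (V → Ω) → ℝ := fun v x => if x0 = v then f (x v) / η else 1 with hfhat
  set hfac : V × V → (V → Ω) → ℝ := fun e x => U (x e.1) (x e.2) / ε with hhfac
  set base : ({v // ¬v ∈ S} → Ω) → V → Ω := fun b u => if hu : u ∈ S then ω else b ⟨u, hu⟩ with hbase
  set wt : ({v // ¬v ∈ S} → Ω) → V → Ω → ℝ := fun b v z =>
    fhat v (Function.update (base b) v z) *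
      ∏ e ∈ D.filter (fun e => e.1 = v ∨ e.2 = v), hfac e (Function.update (base b) v z) with hwt
  set cst : ({v // ¬v ∈ S} → Ω) → ℝ := fun b =>
    (if x0 ∈ S then 1 else f (base b x0) / η) *
      ∏ e ∈ D.filter (fun e => ¬Touch S e), hfac e (base b) with hcst
  have hfac1 : ∀ e x, |hfac e x| ≤ 1 := fun e x => by
    simp only [hhfac]; rw [abs_div, abs_of_pos hε, div_le_one hε]; exact hU.bound _ _
  have hfh1 : ∀ z, |f z / η| ≤ 1 := fun z => by
    rw [abs_div, abs_of_pos hη, div_le_one hη]; exact hfb z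
  have hwt1 : ∀ b v, Measurable (wt b v) ∧ ∀ z, |wt b v z| ≤ 1 := by
    intro b v
    have hu : Measurable fun z => Function.update (base b) v z := measurable_update _
    refine ⟨Measurable.mul ?_ (Finset.measurable_prod _ fun e _ =>
      ((hU.meas.comp (((measurable_pi_apply e.1).comp hu).prodMk
        ((measurable_pi_apply e.2).comp hu))).div_const ε)), fun z => ?_⟩
    · simp only [hfhat]
      split_ifs
      · exact ((hf.comp ((measurable_pi_apply v).comp hu)).div_const η)
      · exact measurable_const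
    · simp only [hwt]
      rw [abs_mul]
      refine mul_le_one₀ ?_ (abs_nonneg _) ?_
      · simp only [hfhat]
        split_ifs
        · exact hfh1 _
        · simp
      · rw [Finset.abs_prod]
        exact prod_le_one (fun e _ => abs_nonneg _) fun e _ => hfac1 _ _
  have hcst1 : ∀ b, |cst b| ≤ 1 := by
    intro b
    simp only [hcst]
    rw [abs_mul]
    refine mul_le_one₀ ?_ (abs_nonneg _) ?_
    · split_ifs
      · simp
      · exact hfh1 _
    · rw [Finset.abs_prod]
      exact prod_le_one (fun e _ => abs_nonneg _) fun e _ => hfac1 _ _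
  -- the integrand in these terms
  have hpt : ∀ (a : {v // v ∈ S} → Ω) (b : {v // ¬v ∈ S} → Ω),
      f (Ψ (a, b) x0) * eprod U K (Ψ (a, b)) = η * ε ^ D.card *
        (cst b * ((∏ i : Fin (m + 1), U (a (σ i)) (a (σ (i + 1)))) *
          ∏ i : Fin (m + 1), wt b (c i) (a (σ i)))) := by
    intro a b
    set x := Ψ (a, b) with hx
    have hin : ∀ i : Fin (m + 1), x (c i) = a (σ i) := fun i => by
      simp only [hx, hΨ, MeasurableEquiv.piEquivPiSubtypeProd]
      exact dif_pos (mem_image_of_mem c (mem_range.2 i.2))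
    have hout : ∀ u, u ∉ S → x u = base b u := fun u hu => by
      simp only [hx, hΨ, MeasurableEquiv.piEquivPiSubtypeProd, hbase, dif_neg hu]
      exact dif_neg hu
    have hupd : ∀ v ∈ S, ∀ u, (u = v ∨ u ∉ S) → Function.update (base b) v (x v) u = x u := by
      rintro v hv u (rfl | hu)
      · simp
      · rw [Function.update_of_ne (by rintro rfl; exact hu hv), hout u hu]
    have h1 : eprod U K x = eprod U C x * eprod U D x := by
      rw [eprod, eprod, eprod, mul_comm, hD, prod_sdiff (cycEdges_subset K _ c)]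
    have h2 : eprod U D x = ε ^ D.card * ∏ e ∈ D, hfac e x := by
      simp only [hhfac, prod_div_distrib, prod_const]
      rw [mul_div_cancel₀ _ (pow_ne_zero _ hε.ne')]
      rfl
    have h3' : ∏ e ∈ D, hfac e x = (∏ v ∈ S, ∏ e ∈ D.filter (fun e => e.1 = v ∨ e.2 = v),
        hfac e (Function.update (base b) v (x v))) *
        ∏ e ∈ D.filter (fun e => ¬Touch S e), hfac e (base b) := by
      rw [← prod_filter_mul_prod_filter_not D (fun e => Touch S e)]
      congr 1
      · rw [show D.filter (fun e => Touch S e) =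
            S.biUnion fun v => D.filter (fun e => e.1 = v ∨ e.2 = v) from ?_, prod_biUnion]
        · refine prod_congr rfl fun v hv => prod_congr rfl fun e he => ?_
          obtain ⟨heD, hev⟩ := mem_filter.1 he
          have hoth : ∀ u, (u = e.1 ∨ u = e.2) → u = v ∨ u ∉ S := fun u hu => by
            by_cases huS : u ∈ S
            · exact Or.inl (hsep e heD u huS v hv (hu.imp Eq.symm Eq.symm) hev)
            · exact Or.inr huS
          simp only [hhfac]
          rw [hupd v hv e.1 (hoth _ (Or.inl rfl)), hupd v hv e.2 (hoth _ (Or.inr rfl))]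
        · intro v hv w hw hvw
          rw [Function.onFun, disjoint_left]
          intro e he1 he2
          exact hvw (hsep e (mem_filter.1 he1).1 v hv w hw (mem_filter.1 he1).2
            (mem_filter.1 he2).2)
        · ext e
          simp only [mem_biUnion]
          rw [mem_filter]
          simp only [mem_filter, Touch]
          constructor
          · rintro ⟨he, h' | h'⟩
            · exact ⟨e.1, h', he, Or.inl rfl⟩
            · exact ⟨e.2, h', he, Or.inr rfl⟩
          · rintro ⟨v, hv, he, rfl | rfl⟩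
            · exact ⟨he, Or.inl hv⟩
            · exact ⟨he, Or.inr hv⟩
      · refine prod_congr rfl fun e he => ?_
        obtain ⟨-, hev⟩ := mem_filter.1 he
        simp only [hhfac]
        rw [hout e.1 fun h' => hev (Or.inl h'), hout e.2 fun h' => hev (Or.inr h')]
    have h4 : f (x x0) = η * ((if x0 ∈ S then 1 else f (base b x0) / η) *
        ∏ v ∈ S, fhat v (Function.update (base b) v (x v))) := by
      simp only [hfhat, Function.update_self]
      rw [prod_ite_eq S x0 (fun v => f (x v) / η)]
      split_ifs with hx0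
      · field_simp
      · rw [hout x0 hx0]; field_simp
    have h5 : ∏ i : Fin (m + 1), wt b (c i) (a (σ i)) = ∏ v ∈ S, wt b v (x v) := by
      have e : ∏ v ∈ S, wt b v (x v) = ∏ i ∈ range (m + 1), wt b (c i) (x (c i)) :=
        prod_image (fun i hi j hj hij => h.2.1 i (mem_range.1 hi) j (mem_range.1 hj) hij)
      rw [e, ← Fin.prod_univ_eq_prod_range]
      exact prod_congr rfl fun i _ => by rw [hin i]
    have h6 : eprod U C x = ∏ i : Fin (m + 1), U (a (σ i)) (a (σ (i + 1))) := by
      rw [hC, eprod_cycEdges hU hK h]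
      exact prod_congr rfl fun i _ => by rw [hin i, hin (i + 1)]
    rw [h5, h1, h2, h3', h4, h6]
    simp only [hwt, hcst, prod_mul_distrib]
    ring
  rw [← hmp.integral_comp Ψ.measurableEmbedding]
  simp only [hpt]
  rw [integral_const_mul, abs_mul, abs_of_pos (by positivity), mul_assoc η, mul_assoc η]
  refine mul_le_mul_of_nonneg_left (mul_le_mul_of_nonneg_left ?_ (by positivity)) hη.le
  have hT0 : 0 ≤ wtrace μ U (List.replicate (m + 1) one1) := ones_trace_nonneg hK h hU
  refine abs_integral_prod_le hT0 fun b => ?_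
  simp only []
  rw [integral_const_mul, abs_mul]
  refine le_trans (mul_le_of_le_one_left (abs_nonneg _) (hcst1 b)) ?_
  rw [← hmp2.integral_comp Φ.measurableEmbedding]
  simp only [hΦv]
  rw [integral_closed hU _ fun i => hwt1 b (c i), show m + 1 = 2 * k by omega]
  refine abs_wtrace_le hU (by omega) (fun w hw => ?_) (List.length_ofFn.trans (by omega))
  obtain ⟨i, rfl⟩ := List.mem_ofFn.1 hw
  exact hwt1 b _

end Vale.Agent.P050.Local
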