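import Vale.Agent.P050.Local.Bound

/-!
Monotonicity along the segment from the constant kernel.

Proof notes.  The homomorphism integral of `1 + sU` is a polynomial in `s`, and `s` times its
derivative is the sum bounded in `deriv_sum_nonneg`.
-/

namespace Vale.Agent.P050.Local

open MeasureTheory Finset

set_option linter.unusedSectionVars false

variable {V : Type} [Fintype V] [DecidableEq V] {Ω : Type} [MeasurableSpace Ω] {μ : Measure Ω}
  [IsProbabilityMeasure μ] {U : Ω → Ω → ℝ} {ε : ℝ}

theorem zint_expand (hU : GoodU U ε) (E : Finset (V × V)) :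
    zint μ U E = ∑ F ∈ E.powerset, tint μ U F := by
  simp only [zint, tint]
  rw [← integral_finsetSum _ fun F _ => eprod_integrable hU F]
  refine integral_congr_ae (Filter.Eventually.of_forall fun x => ?_)
  exact prod_one_add (f := fun e : V × V => U (x e.1) (x e.2)) E

theorem goodU_smul (hU : GoodU U ε) {s : ℝ} (h0 : 0 ≤ s) (h1 : s ≤ 1) :
    GoodU (fun a b => s * U a b) ε :=
  ⟨hU.meas.const_mul s, fun a b => by simp only [hU.symm a b], fun a b => by
    rw [abs_mul, abs_of_nonneg h0]
    exact (mul_le_of_le_one_left (abs_nonneg _) h1).trans (hU.bound a b), hU.nonneg⟩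

theorem tint_smul (s : ℝ) (F : Finset (V × V)) :
    tint μ (fun a b => s * U a b) F = s ^ F.card * tint μ U F := by
  simp only [tint, eprod, prod_mul_distrib, prod_const, integral_const_mul]

theorem tint_empty : tint (V := V) μ U ∅ = 1 := by
  simp [tint, eprod]

theorem tint_union_avoid (E K : Finset (V × V)) {F : Finset (V × V)} (hF : F ⊆ avoid E K) :
    tint μ U (K ∪ F) = tint μ U K * tint μ U F := by
  have hout : ∀ e ∈ F, e.1 ∉ verts K ∧ e.2 ∉ verts K := fun e he =>
    not_or.1 (mem_filter.1 (hF he)).2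
  have hdisj : Disjoint K F := disjoint_left.2 fun e heK heF =>
    (hout e heF).1 (fst_mem_verts heK)
  have e : ∀ x : V → Ω, eprod U (K ∪ F) x = eprod U K x * eprod U F x := fun x =>
    prod_union hdisj
  simp only [tint, e]
  exact integral_indep (verts K) (fun x y h => eprod_congr h) fun x y h => eprod_congr fun v hv => by
    obtain ⟨g, hg, hgv⟩ := mem_verts.1 hv
    rcases hgv with rfl | rfl
    · exact h _ (hout g hg).1
    · exact h _ (hout g hg).2

/-- A kernel near the constant one has at least the density of the constant one. -/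
theorem one_le_zint (hU : GoodU U ε) (hε : 0 < ε) (h0 : ∫ z, udeg μ U z ∂μ = 0)
    {col : V → Bool} {E : Finset (V × V)} (hE : Bip col E) {Δ : ℕ} (hΔ : 1 ≤ Δ)
    (hdeg : ∀ v, degIn E v ≤ Δ) (hsm : ε * Δ ≤ 1 / 250) : 1 ≤ zint μ U E := by
  set g : ℝ → ℝ := fun s => ∑ F ∈ E.powerset, s ^ F.card * tint μ U F with hg
  have hd : ∀ s, HasDerivAt g
      (∑ F ∈ E.powerset, ((F.card : ℝ) * s ^ (F.card - 1)) * tint μ U F) s := fun s =>
    HasDerivAt.fun_sum fun F _ => (hasDerivAt_pow F.card s).mul_const _
  have hpos : ∀ s ∈ Set.Ioo (0 : ℝ) 1, 0 ≤ deriv g s := by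
    intro s hs
    rw [(hd s).deriv]
    refine nonneg_of_mul_nonneg_right ?_ hs.1
    have hU' : GoodU (fun a b => s * U a b) ε := goodU_smul hU hs.1.le hs.2.le
    have h0' : ∫ z, udeg μ (fun a b => s * U a b) z ∂μ = 0 := by
      simp only [udeg, integral_const_mul] at h0 ⊢
      rw [h0, mul_zero]
    have key := deriv_sum_nonneg (μ := μ) hU' hε h0' hE hΔ hdeg hsm
    refine key.trans_eq ?_
    have e : s * ∑ F ∈ E.powerset, ((F.card : ℝ) * s ^ (F.card - 1)) * tint μ U F =
        ∑ F ∈ E.powerset, (F.card : ℝ) * tint μ (fun a b => s * U a b) F := by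
      rw [mul_sum]
      refine sum_congr rfl fun F _ => ?_
      rw [tint_smul]
      rcases Nat.eq_zero_or_pos F.card with h | h
      · simp [h]
      · rw [show F.card = F.card - 1 + 1 by omega, pow_succ]
        simp only [Nat.add_sub_cancel]
        ring
    rw [e, sum_card_mul]
    refine sum_congr rfl fun K _ => ?_
    rw [zint_expand hU', mul_sum]
    refine congrArg _ (sum_congr rfl fun F hF => ?_)
    exact (tint_union_avoid E K (mem_powerset.1 hF)).symm
  have hmono : MonotoneOn g (Set.Icc 0 1) :=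
    monotoneOn_of_deriv_nonneg (convex_Icc 0 1)
      (fun s _ => (hd s).continuousAt.continuousWithinAt)
      (fun s _ => (hd s).differentiableAt.differentiableWithinAt)
      (fun s hs => hpos s (by rwa [interior_Icc] at hs))
  have g1 : g 1 = zint μ U E := by simp [hg, zint_expand hU]
  have g0 : g 0 = 1 := by
    simp only [hg]
    rw [sum_eq_single_of_mem ∅ (empty_mem_powerset E) fun F _ hF => by
      rw [zero_pow (card_ne_zero.2 (nonempty_iff_ne_empty.2 hF)), zero_mul]]
    simp [tint_empty]
  have := hmono (Set.left_mem_Icc.2 zero_le_one) (Set.right_mem_Icc.2 zero_le_one) zero_le_one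
  rwa [g0, g1] at this

/-- Two distinct coordinates are distributed as the product. -/
theorem measurePreserving_pair {a b : V} (hab : a ≠ b) :
    MeasurePreserving (fun x : V → Ω => (x a, x b)) (Measure.pi fun _ => μ) (μ.prod μ) := by
  have hm : Measurable fun x : V → Ω => (x a, x b) :=
    (measurable_pi_apply a).prodMk (measurable_pi_apply b)
  refine ⟨hm, ?_⟩
  have hu := measurePreserving_update (μ := μ) a
  conv_lhs => rw [← hu.map_eq]
  rw [Measure.map_map hm hu.measurable]
  have e : ((fun x : V → Ω => (x a, x b)) ∘ fun q : Ω × (V → Ω) => Function.update q.2 a q.1) =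
      Prod.map id (Function.eval b) := by
    funext q
    simp [Function.update_of_ne hab.symm, Prod.map]
  rw [e]
  exact ((MeasurePreserving.id μ).prod (measurePreserving_eval (fun _ : V => μ) b)).map_eq

/-- Local statement for kernels that are close to one almost everywhere. -/
theorem one_le_of_ae (W : Ω → Ω → ℝ) (hsymm : ∀ a b, W a b = W b a)
    (hmeas : Measurable (Function.uncurry W)) (hone : ∫ a, ∫ b, W a b ∂μ ∂μ = 1)
    {col : V → Bool} {E : Finset (V × V)} (hE : Bip col E) {Δ : ℕ}
    (hdeg : ∀ v, degIn E v ≤ Δ)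
    (hW : ∀ᵐ q ∂μ.prod μ, |W q.1 q.2 - 1| ≤ 1 / (250 * (Δ : ℝ))) :
    1 ≤ ∫ x, ∏ e ∈ E, W (x e.1) (x e.2) ∂Measure.pi (fun _ : V => μ) := by
  rcases E.eq_empty_or_nonempty with rfl | ⟨e0, he0⟩
  · simp
  have hΔ : 1 ≤ Δ := le_trans (card_pos.2 ⟨e0, mem_filter.2 ⟨he0, Or.inl rfl⟩⟩) (hdeg e0.1)
  have hD : (0 : ℝ) < Δ := by exact_mod_cast hΔ
  set δ : ℝ := 1 / (250 * (Δ : ℝ)) with hδ
  have hδ0 : 0 < δ := by positivity
  set U : Ω → Ω → ℝ := fun a b => max (-δ) (min δ (W a b - 1)) with hUdef
  have hU : GoodU U δ := by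
    refine ⟨measurable_const.max (measurable_const.min (hmeas.sub measurable_const)),
      fun a b => by simp only [hUdef, hsymm a b], fun a b => abs_le.2 ⟨le_max_left _ _, ?_⟩, hδ0.le⟩
    exact max_le (by linarith) (min_le_left _ _)
  have hae : ∀ᵐ q ∂μ.prod μ, W q.1 q.2 = 1 + U q.1 q.2 := by
    filter_upwards [hW] with q hq
    obtain ⟨h1, h2⟩ := abs_le.1 hq
    simp only [hUdef]
    rw [min_eq_right h2, max_eq_right h1]
    ring
  have hUint : Integrable (fun q : Ω × Ω => U q.1 q.2) (μ.prod μ) :=
    integrable_bdd hU.meas (C := δ) fun q => hU.bound q.1 q.2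
  have h1U : Integrable (fun q : Ω × Ω => 1 + U q.1 q.2) (μ.prod μ) :=
    (integrable_const 1).add hUint
  have hWint : Integrable (fun q : Ω × Ω => W q.1 q.2) (μ.prod μ) :=
    h1U.congr (hae.mono fun q h => h.symm)
  have h0 : ∫ z, udeg μ U z ∂μ = 0 := by
    have h1 : ∫ q, W q.1 q.2 ∂μ.prod μ = 1 := by rw [integral_prod _ hWint]; exact hone
    rw [integral_congr_ae hae, integral_add (integrable_const 1) hUint, integral_const,
      probReal_univ, one_smul, integral_prod _ hUint] at h1
    simp only [udeg]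
    linarith
  have hsm : δ * Δ ≤ 1 / 250 := le_of_eq (by rw [hδ]; field_simp)
  have hall : ∀ᵐ x : V → Ω ∂Measure.pi (fun _ => μ),
      ∀ e ∈ E, 1 + U (x e.1) (x e.2) = W (x e.1) (x e.2) := by
    refine (Filter.eventually_all_finset E).2 fun e he => ?_
    have hne : e.1 ≠ e.2 := fun h => by
      have h' := hE e he
      rw [h, h'.2] at h'
      exact absurd h'.1 (by simp)
    exact ((measurePreserving_pair hne).quasiMeasurePreserving.ae hae).mono fun x hx => hx.symm
  exact (one_le_zint (μ := μ) hU hδ0 h0 hE hΔ hdeg hsm).trans_eq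
    (integral_congr_ae (hall.mono fun x hx => prod_congr rfl hx))

/-- The oriented edges of a graph with two colours. -/
def orient (G : SimpleGraph V) [DecidableRel G.Adj] (col : V → Bool) : Finset (V × V) :=
  univ.filter fun e => G.Adj e.1 e.2 ∧ col e.1 = false

theorem orient_spec (G : SimpleGraph V) [DecidableRel G.Adj] (col : V → Bool)
    (hcol : ∀ a b, G.Adj a b → col a ≠ col b) :
    Bip col (orient G col) ∧ (∀ v, degIn (orient G col) v ≤ G.degree v) ∧
      ∀ f : Sym2 V → ℝ, ∏ e ∈ G.edgeFinset, f e = ∏ e ∈ orient G col, f s(e.1, e.2) := by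
  have hbip : Bip col (orient G col) := fun e he => by
    obtain ⟨-, h1, h2⟩ := mem_filter.1 he
    refine ⟨h2, ?_⟩
    have := hcol _ _ h1
    rw [h2] at this
    simpa using this
  refine ⟨hbip, fun v => ?_, fun f => ?_⟩
  · rw [degIn, ← G.card_neighborFinset_eq_degree v]
    refine card_le_card_of_injOn (fun e => if e.1 = v then e.2 else e.1) (fun e he => ?_)
      fun e he e' he' hee => ?_
    · obtain ⟨he1, hev⟩ := mem_filter.1 he
      have hadj := (mem_filter.1 he1).2.1
      simp only [mem_coe, SimpleGraph.mem_neighborFinset]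
      split_ifs with h
      · exact h ▸ hadj
      · exact hev.resolve_left h ▸ hadj.symm
    · obtain ⟨he1, hev⟩ := mem_filter.1 he
      obtain ⟨he1', hev'⟩ := mem_filter.1 he'
      obtain ⟨a1, a2⟩ := hbip e he1
      obtain ⟨b1, b2⟩ := hbip e' he1'
      simp only at hee
      split_ifs at hee with h h' h'
      · exact Prod.ext (h.trans h'.symm) hee
      · exact absurd ((h ▸ a1).symm.trans ((hev'.resolve_left h') ▸ b2)) (by simp)
      · exact absurd ((h' ▸ b1).symm.trans ((hev.resolve_left h) ▸ a2)) (by simp)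
      · exact Prod.ext hee ((hev.resolve_left h).trans (hev'.resolve_left h').symm)
  · refine (prod_bij (fun e _ => s(e.1, e.2)) (fun e he => ?_) (fun e he e' he' hee => ?_)
      (fun z hz => ?_) fun e _ => rfl).symm
    · exact SimpleGraph.mem_edgeFinset.2 (mem_filter.1 he).2.1
    · rcases Sym2.eq_iff.1 hee with ⟨h1, h2⟩ | ⟨h1, h2⟩
      · exact Prod.ext h1 h2
      · have := (hbip e he).1
        rw [h1, (hbip e' he').2] at this
        exact absurd this (by simp)
    · rw [SimpleGraph.mem_edgeFinset] at hz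
      induction z using Sym2.ind with
      | _ a b =>
        have hab : G.Adj a b := hz
        by_cases ha : col a = false
        · exact ⟨(a, b), mem_filter.2 ⟨mem_univ _, hab, ha⟩, rfl⟩
        · have hb : col b = false := by
            have := hcol a b hab
            cases h1 : col a <;> cases h2 : col b <;> simp_all
          exact ⟨(b, a), mem_filter.2 ⟨mem_univ _, hab.symm, hb⟩, Sym2.eq_swap⟩

end Vale.Agent.P050.Local
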